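import Mathlib

/-!
# P054 / T2, leaf (W'), part (c), (d): finitely many generators over the graded quotients

`S T` is a multiplicative family of finite dimensional subspaces of a domain `R`; if at most
`D₁` elements of `R` are independent with coefficients of equal degree, then the space
`∑ i, w i * S T` has dimension at most `D₁ * dim (S (T + C))`, with `C` independent of `T`.
-/

namespace Vale.Agent.P054.T2.H431

open scoped BigOperators

variable {k R : Type*} [Field k] [CommRing R] [IsDomain R] [Algebra k R]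

/-- `S`-independence of the subfamily of `w` indexed by `s`. -/
def SInd (S : ℕ → Submodule k R) {ι : Type*} (w : ι → R) (s : Finset ι) : Prop :=
  ∀ (T : ℕ) (a : ι → R), (∀ i ∈ s, a i ∈ S T) → ∑ i ∈ s, a i * w i = 0 → ∀ i ∈ s, a i = 0

/-- the hypothesis `[L : K₀] ≤ D₁`, written without fractions. -/
def SRank (S : ℕ → Submodule k R) (D₁ : ℕ) : Prop :=
  ∀ (n : ℕ) (w : Fin n → R), (∀ (T : ℕ) (a : Fin n → R), (∀ i, a i ∈ S T) →
      ∑ i, a i * w i = 0 → ∀ i, a i = 0) → n ≤ D₁

omit [IsDomain R] in
theorem SInd.card_le {S : ℕ → Submodule k R} {D₁ : ℕ} (hyp : SRank S D₁) {ι : Type*}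
    (w : ι → R) (s : Finset ι) (hs : SInd S w s) : s.card ≤ D₁ := by
  classical
  let e : Fin s.card ≃ s := s.equivFin.symm
  refine hyp s.card (fun i => w (e i)) ?_
  intro T a ha hsum i
  have key := hs T (fun j => if h : j ∈ s then a (e.symm ⟨j, h⟩) else 0)
    (by
      intro j hj
      simp only [hj, dif_pos]
      exact ha _)
    (by
      rw [← Finset.sum_coe_sort s]
      rw [← hsum]
      refine (Fintype.sum_equiv e _ _ ?_).symm
      intro x
      simp)
  have h2 := key (e i) (e i).2
  simpa using h2

omit [IsDomain R] in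
theorem prod_mem_S {S : ℕ → Submodule k R} (h1 : (1 : R) ∈ S 0)
    (hmul : ∀ a b (u v : R), u ∈ S a → v ∈ S b → u * v ∈ S (a + b))
    {ι : Type*} (s : Finset ι) (b : ι → R) (t : ι → ℕ) (hb : ∀ i ∈ s, b i ∈ S (t i)) :
    ∏ i ∈ s, b i ∈ S (∑ i ∈ s, t i) := by
  classical
  induction s using Finset.induction_on with
  | empty => simpa using h1
  | insert a s ha ih =>
    rw [Finset.prod_insert ha, Finset.sum_insert ha]
    exact hmul _ _ _ _ (hb a (Finset.mem_insert_self _ _))
      (ih fun i hi => hb i (Finset.mem_insert_of_mem hi))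

theorem nd_core (S : ℕ → Submodule k R) (h1 : (1 : R) ∈ S 0)
    (hmul : ∀ a b (u v : R), u ∈ S a → v ∈ S b → u * v ∈ S (a + b))
    (hfin : ∀ T, Module.Finite k (S T)) {D₁ : ℕ} (hyp : SRank S D₁)
    {ι : Type*} [Fintype ι] (w : ι → R) :
    ∃ C : ℕ, ∀ (T : ℕ) (U : Submodule k R),
      (∀ u ∈ U, ∃ a : ι → R, (∀ i, a i ∈ S T) ∧ u = ∑ i, a i * w i) →
      Module.finrank k U ≤ D₁ * Module.finrank k (S (T + C)) := by
  classical
  -- a maximal independent subset
  obtain ⟨s, hs, hmax⟩ : ∃ s : Finset ι, SInd S w s ∧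
      ∀ s' : Finset ι, SInd S w s' → s'.card ≤ s.card := by
    have hne : ((Finset.univ : Finset (Finset ι)).filter (fun s => SInd S w s)).Nonempty :=
      ⟨∅, Finset.mem_filter.2 ⟨Finset.mem_univ _,
        fun T a _ _ i hi => absurd hi (Finset.notMem_empty i)⟩⟩
    obtain ⟨s, hs, hm⟩ := Finset.exists_max_image _ (fun s : Finset ι => s.card) hne
    refine ⟨s, (Finset.mem_filter.1 hs).2, fun s' hs' => ?_⟩
    exact hm s' (Finset.mem_filter.2 ⟨Finset.mem_univ _, hs'⟩)
  -- every `w i` is a quotient combination of the `w l`, `l ∈ s`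
  have hrep : ∀ i : ι, ∃ (t : ℕ) (b : R) (α : ι → R), b ∈ S t ∧ b ≠ 0 ∧ (∀ l, α l ∈ S t) ∧
      b * w i = ∑ l ∈ s, α l * w l := by
    intro i
    by_cases hi : i ∈ s
    · refine ⟨0, 1, fun l => if l = i then 1 else 0, h1, one_ne_zero, ?_, ?_⟩
      · intro l
        by_cases hl : l = i
        · simpa [hl] using h1
        · simp [hl]
      · rw [Finset.sum_eq_single i]
        · simp
        · intro l _ hl
          simp [hl]
        · intro h
          exact absurd hi h
    · have hnot : ¬ SInd S w (insert i s) := by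
        intro h
        have := hmax _ h
        rw [Finset.card_insert_of_notMem hi] at this
        omega
      unfold SInd at hnot
      push Not at hnot
      obtain ⟨T, a, ha, hsum, j, hj, hj0⟩ := hnot
      rw [Finset.sum_insert hi] at hsum
      have hai : a i ≠ 0 := by
        intro h0
        rw [h0, zero_mul, zero_add] at hsum
        have hz := hs T a (fun l hl => ha l (Finset.mem_insert_of_mem hl)) hsum
        rcases Finset.mem_insert.1 hj with rfl | hj'
        · exact hj0 h0
        · exact hj0 (hz j hj')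
      refine ⟨T, a i, fun l => if l ∈ s then - a l else 0, ha i (Finset.mem_insert_self _ _), hai,
        ?_, ?_⟩
      · intro l
        by_cases hl : l ∈ s
        · simpa [hl] using ha l (Finset.mem_insert_of_mem hl)
        · simp [hl]
      · rw [eq_neg_of_add_eq_zero_left hsum, ← Finset.sum_neg_distrib]
        refine Finset.sum_congr rfl fun l hl => ?_
        simp [hl]
  choose t b α hb hb0 hα hrel using hrep
  refine ⟨∑ i, t i, fun T U hU => ?_⟩
  set β : R := ∏ i, b i with hβ
  have hβ0 : β ≠ 0 := Finset.prod_ne_zero_iff.2 fun i _ => hb0 i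
  -- the target of dimension `|s| * dim S (T + C)`
  let φ : (s → S (T + ∑ i, t i)) →ₗ[k] R :=
    { toFun := fun c => ∑ l : s, (c l : R) * w l
      map_add' := by
        intro c c'
        simp [add_mul, Finset.sum_add_distrib]
      map_smul' := by
        intro r c
        simp [Finset.smul_sum] }
  let ψ : U →ₗ[k] R := (LinearMap.mulLeft k β).comp U.subtype
  have hψinj : Function.Injective ψ := by
    intro u v huv
    have : β * (u : R) = β * (v : R) := huv
    exact Subtype.ext (mul_left_cancel₀ hβ0 this)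
  have hle : LinearMap.range ψ ≤ LinearMap.range φ := by
    rintro _ ⟨u, rfl⟩
    obtain ⟨a, ha, hu⟩ := hU u u.2
    -- cofactor of `b i`
    have hcof : ∀ i, β = (∏ j ∈ Finset.univ.erase i, b j) * b i := fun i => by
      rw [hβ, mul_comm, Finset.mul_prod_erase _ _ (Finset.mem_univ i)]
    have hcofmem : ∀ i l, (∏ j ∈ Finset.univ.erase i, b j) * α i l ∈ S (∑ i, t i) := by
      intro i l
      have h := hmul _ _ _ _ (prod_mem_S h1 hmul (Finset.univ.erase i) b t fun j _ => hb j)
        (hα i l)
      rwa [Finset.sum_erase_add _ _ (Finset.mem_univ i)] at h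
    refine ⟨fun l => ⟨∑ i, a i * ((∏ j ∈ Finset.univ.erase i, b j) * α i l), ?_⟩, ?_⟩
    · exact Submodule.sum_mem _ fun i _ => hmul _ _ _ _ (ha i) (hcofmem i l)
    · change ∑ l : s, (∑ i, a i * ((∏ j ∈ Finset.univ.erase i, b j) * α i l)) * w l = β * (u : R)
      rw [hu, Finset.mul_sum, Finset.sum_coe_sort s
        (fun l => (∑ i, a i * ((∏ j ∈ Finset.univ.erase i, b j) * α i l)) * w l)]
      simp_rw [Finset.sum_mul]
      rw [Finset.sum_comm]
      refine Finset.sum_congr rfl fun i _ => ?_
      calc ∑ l ∈ s, a i * ((∏ j ∈ Finset.univ.erase i, b j) * α i l) * w l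
          = a i * (∏ j ∈ Finset.univ.erase i, b j) * ∑ l ∈ s, α i l * w l := by
            rw [Finset.mul_sum]
            refine Finset.sum_congr rfl fun l _ => ?_
            ring
        _ = β * (a i * w i) := by
            rw [← hrel i, hcof i]
            ring
  have : ∀ T, Module.Finite k (S T) := hfin
  calc Module.finrank k U = Module.finrank k (LinearMap.range ψ) :=
        (LinearMap.finrank_range_of_inj hψinj).symm
    _ ≤ Module.finrank k (LinearMap.range φ) := Submodule.finrank_mono hle
    _ ≤ Module.finrank k (s → S (T + ∑ i, t i)) := LinearMap.finrank_range_le φ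
    _ = s.card * Module.finrank k (S (T + ∑ i, t i)) := by
        rw [Module.finrank_pi_fintype]
        simp
    _ ≤ D₁ * Module.finrank k (S (T + ∑ i, t i)) :=
        Nat.mul_le_mul_right _ (SInd.card_le hyp w s hs)

end Vale.Agent.P054.T2.H431
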