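import Mathlib
import Vale.Agent.P054.T2.H431.NDCore

/-!
# P054 / T2, leaf (W'), part (b), (c), (d)

`S T` multiplicative family in a domain `R`, `y ∈ R` with `y ^ D = ∑_{j < D} y ^ j * c_j`,
`c_j ∈ S (D - j)`.  `Gr m = ∑_{a ≤ m} y ^ a * S (m - a)`.  Then for fixed `J` the space
`∑_{i ≤ J} Gr (T - i)` has dimension at most `D₁ * dim S (T + C)`.
-/

namespace Vale.Agent.P054.T2.H431

open scoped BigOperators

variable {k R : Type*} [Field k] [CommRing R] [Algebra k R]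

/-- the reduced graded piece `∑_{a < D, a ≤ m} y ^ a * S (m - a)`. -/
def Gr (S : ℕ → Submodule k R) (y : R) (D : ℕ) (m : ℕ) : Submodule k R where
  carrier := {u | ∃ v : ℕ → R, (∀ a, a ≤ m → v a ∈ S (m - a)) ∧ (∀ a, m < a → v a = 0) ∧
    u = ∑ a ∈ Finset.range D, y ^ a * v a}
  zero_mem' := ⟨fun _ => 0, fun _ _ => Submodule.zero_mem _, fun _ _ => rfl, by simp⟩
  add_mem' := by
    rintro _ _ ⟨v, hv, hv0, rfl⟩ ⟨w, hw, hw0, rfl⟩
    refine ⟨fun a => v a + w a, fun a ha => Submodule.add_mem _ (hv a ha) (hw a ha),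
      fun a ha => by simp [hv0 a ha, hw0 a ha], ?_⟩
    simp [mul_add, Finset.sum_add_distrib]
  smul_mem' := by
    rintro r _ ⟨v, hv, hv0, rfl⟩
    refine ⟨fun a => r • v a, fun a ha => Submodule.smul_mem _ _ (hv a ha),
      fun a ha => by simp [hv0 a ha], ?_⟩
    simp [Finset.smul_sum]

theorem mem_Gr {S : ℕ → Submodule k R} {y : R} {D m : ℕ} {u : R} :
    u ∈ Gr S y D m ↔ ∃ v : ℕ → R, (∀ a, a ≤ m → v a ∈ S (m - a)) ∧ (∀ a, m < a → v a = 0) ∧
    u = ∑ a ∈ Finset.range D, y ^ a * v a := Iff.rfl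

theorem Gr_zero_mem {S : ℕ → Submodule k R} {y : R} {D m : ℕ} (hD : 0 < D) {u : R}
    (hu : u ∈ S m) : u ∈ Gr S y D m := by
  refine ⟨fun a => if a = 0 then u else 0, ?_, ?_, ?_⟩
  · intro a ha
    by_cases h : a = 0
    · subst h; simpa using hu
    · simp [h]
  · intro a ha
    have : a ≠ 0 := by omega
    simp [this]
  · rw [Finset.sum_eq_single 0]
    · simp
    · intro b _ hb
      simp [hb]
    · intro h
      exact absurd (Finset.mem_range.2 hD) h

theorem y_pow_mul_mem_Gr {S : ℕ → Submodule k R}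
    {y : R} {D : ℕ} {a b : ℕ} (ha : a < D) {u : R} (hu : u ∈ S b) :
    y ^ a * u ∈ Gr S y D (a + b) := by
  refine ⟨fun i => if i = a then u else 0, ?_, ?_, ?_⟩
  · intro i hi
    by_cases h : i = a
    · subst h
      simpa using hu
    · simp [h]
  · intro i hi
    have : i ≠ a := by omega
    simp [this]
  · rw [Finset.sum_eq_single a]
    · simp
    · intro b _ hb
      simp [hb]
    · intro h
      exact absurd (Finset.mem_range.2 ha) h

/-- multiplication by `y`. -/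
theorem y_mul_mem_Gr {S : ℕ → Submodule k R}
    (hmul : ∀ a b (u v : R), u ∈ S a → v ∈ S b → u * v ∈ S (a + b))
    {y : R} {D : ℕ} (c : ℕ → R) (hc : ∀ j, j < D → c j ∈ S (D - j))
    (hy : y ^ D = ∑ j ∈ Finset.range D, y ^ j * c j)
    {m : ℕ} {u : R} (hu : u ∈ Gr S y D m) : y * u ∈ Gr S y D (m + 1) := by
  obtain ⟨v, hv, hv0, rfl⟩ := hu
  rw [Finset.mul_sum]
  refine Submodule.sum_mem _ fun a ha => ?_
  have haD := Finset.mem_range.1 ha
  by_cases ham : m < a
  · rw [hv0 a ham]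
    simp
  · have ham' : a ≤ m := by omega
    have hva := hv a ham'
    rw [← mul_assoc, ← pow_succ']
    by_cases hlt : a + 1 < D
    · have := y_pow_mul_mem_Gr (y := y) hlt hva
      have he : a + 1 + (m - a) = m + 1 := by omega
      rwa [he] at this
    · have he : a + 1 = D := by omega
      rw [he, hy, Finset.sum_mul]
      refine Submodule.sum_mem _ fun j hj => ?_
      have hjD := Finset.mem_range.1 hj
      rw [mul_assoc]
      have := y_pow_mul_mem_Gr (y := y) hjD (hmul _ _ _ _ (hc j hjD) hva)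
      have he2 : j + (D - j + (m - a)) = m + 1 := by omega
      rwa [he2] at this

theorem S_mul_mem_Gr {S : ℕ → Submodule k R}
    (hmul : ∀ a b (u v : R), u ∈ S a → v ∈ S b → u * v ∈ S (a + b))
    {y : R} {D : ℕ} {m n : ℕ} {u x : R} (hx : x ∈ S n) (hu : u ∈ Gr S y D m) :
    x * u ∈ Gr S y D (m + n) := by
  obtain ⟨v, hv, hv0, rfl⟩ := hu
  refine ⟨fun a => if a ≤ m then x * v a else 0, ?_, ?_, ?_⟩
  · intro a ha
    by_cases h : a ≤ m
    · simp only [h, if_true]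
      have := hmul _ _ _ _ hx (hv a h)
      have he : n + (m - a) = m + n - a := by omega
      rwa [he] at this
    · simp [h]
  · intro a ha
    have : ¬ a ≤ m := by omega
    simp [this]
  · rw [Finset.mul_sum]
    refine Finset.sum_congr rfl fun a _ => ?_
    by_cases h : a ≤ m
    · simp only [h, if_true]; ring
    · have : v a = 0 := hv0 a (by omega)
      simp [h, this]

theorem y_pow_mem_Gr {S : ℕ → Submodule k R} (h1 : (1 : R) ∈ S 0)
    (hmul : ∀ a b (u v : R), u ∈ S a → v ∈ S b → u * v ∈ S (a + b))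
    {y : R} {D : ℕ} (hD : 0 < D) (c : ℕ → R) (hc : ∀ j, j < D → c j ∈ S (D - j))
    (hy : y ^ D = ∑ j ∈ Finset.range D, y ^ j * c j) (a : ℕ) : y ^ a ∈ Gr S y D a := by
  induction a with
  | zero => simpa using Gr_zero_mem hD h1
  | succ a ih =>
    rw [pow_succ']
    exact y_mul_mem_Gr hmul c hc hy ih

/-- `y ^ a * S b ⊆ Gr (a + b)` for all `a`. -/
theorem y_pow_mul_mem_Gr' {S : ℕ → Submodule k R} (h1 : (1 : R) ∈ S 0)
    (hmul : ∀ a b (u v : R), u ∈ S a → v ∈ S b → u * v ∈ S (a + b))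
    {y : R} {D : ℕ} (hD : 0 < D) (c : ℕ → R) (hc : ∀ j, j < D → c j ∈ S (D - j))
    (hy : y ^ D = ∑ j ∈ Finset.range D, y ^ j * c j) {a b : ℕ} {u : R} (hu : u ∈ S b) :
    y ^ a * u ∈ Gr S y D (a + b) := by
  rw [mul_comm]
  exact S_mul_mem_Gr hmul hu (y_pow_mem_Gr h1 hmul hD c hc hy a)

variable [IsDomain R]

/-- **(ND)**.  For fixed `J` the space `∑_{i ≤ J} Gr (T - i)` has dimension at most
`D₁ * dim S (T + C)`. -/
theorem nd (S : ℕ → Submodule k R) (h1 : (1 : R) ∈ S 0)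
    (hmul : ∀ a b (u v : R), u ∈ S a → v ∈ S b → u * v ∈ S (a + b))
    (hfin : ∀ T, Module.Finite k (S T)) {D₁ : ℕ} (hyp : SRank S D₁)
    {x₀ : R} (hx₀ : x₀ ∈ S 1) (hx₀0 : x₀ ≠ 0) (y : R) (D : ℕ) (J : ℕ) :
    ∃ C : ℕ, ∀ (T : ℕ) (U : Submodule k R),
      (∀ u ∈ U, ∃ u' : ℕ → R, (∀ i, i ≤ T → u' i ∈ Gr S y D (T - i)) ∧
        (∀ i, T < i → u' i = 0) ∧ u = ∑ i ∈ Finset.range (J + 1), u' i) →
      Module.finrank k U ≤ D₁ * Module.finrank k (S (T + C)) := by
  classical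
  have hpow : ∀ n, x₀ ^ n ∈ S n := by
    intro n
    induction n with
    | zero => simpa using h1
    | succ n ih =>
      rw [pow_succ]
      exact hmul _ _ _ _ ih hx₀
  obtain ⟨C, hC⟩ := nd_core S h1 hmul hfin hyp
    (fun p : Fin (J + 1) × Fin D => y ^ (p.2 : ℕ) * x₀ ^ (J + D - p.1 - p.2))
  refine ⟨C, fun T U hU => ?_⟩
  let ψ : R →ₗ[k] R := LinearMap.mulLeft k (x₀ ^ (J + D))
  have hψ : Function.Injective ψ := by
    intro u v huv
    exact mul_left_cancel₀ (pow_ne_zero _ hx₀0) huv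
  have h2 := hC T (U.map ψ) ?_
  · rwa [LinearEquiv.finrank_eq (Submodule.equivMapOfInjective ψ hψ U).symm] at h2
  rintro _ ⟨u, hu, rfl⟩
  obtain ⟨u', hu1, hu2, rfl⟩ := hU u hu
  have hv : ∀ i : ℕ, ∃ v : ℕ → R, (∀ a, i + a ≤ T → v a ∈ S (T - i - a)) ∧
      (∀ a, T < i + a → v a = 0) ∧ u' i = ∑ a ∈ Finset.range D, y ^ a * v a := by
    intro i
    by_cases hi : i ≤ T
    · obtain ⟨v, hv1, hv2, hv3⟩ := hu1 i hi
      exact ⟨v, fun a ha => hv1 a (by omega), fun a ha => hv2 a (by omega), hv3⟩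
    · refine ⟨fun _ => 0, fun a ha => by omega, fun _ _ => rfl, ?_⟩
      rw [hu2 i (by omega)]
      simp
  choose v hv1 hv2 hv3 using hv
  refine ⟨fun p => x₀ ^ ((p.1 : ℕ) + p.2) * v p.1 p.2, ?_, ?_⟩
  · rintro ⟨i, a⟩
    by_cases hia : (i : ℕ) + a ≤ T
    · have := hmul _ _ _ _ (hpow ((i : ℕ) + a)) (hv1 i a hia)
      have he : (i : ℕ) + a + (T - i - a) = T := by omega
      rwa [he] at this
    · have : v i a = 0 := hv2 i a (by omega)
      simp [this]
  · rw [Fintype.sum_prod_type]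
    change x₀ ^ (J + D) * (∑ i ∈ Finset.range (J + 1), u' i) = _
    rw [Finset.mul_sum, Finset.sum_range]
    refine Finset.sum_congr rfl fun i _ => ?_
    rw [hv3 i, Finset.mul_sum, Finset.sum_range]
    refine Finset.sum_congr rfl fun a _ => ?_
    have he : x₀ ^ (J + D) = x₀ ^ ((i : ℕ) + a) * x₀ ^ (J + D - i - a) := by
      rw [← pow_add]
      congr 1
      have := i.2
      have := a.2
      omega
    rw [he]
    ring

end Vale.Agent.P054.T2.H431
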