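import Mathlib
import Vale.Agent.P054.T2.H431.ND

/-!
# P054 / T2, leaf (W'): the passage from polynomials to the graded pieces

`Sx x T` = space of homogeneous polynomials of degree `T` in the elements `x j` of `R`.
Polynomials of degree `≤ T` and of order `≥ T - J` at the point `s` have image in
`∑_{i ≤ J} Gr (T - i)`.
-/

namespace Vale.Agent.P054.T2.H431

open scoped BigOperators
open MvPolynomial

section graded

variable {k R : Type*} [Field k] [CommRing R] [Algebra k R]

/-- the space of homogeneous polynomials of degree `T` in the elements `x j` of `R`. -/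
noncomputable def Sx (k : Type*) {R : Type*} [Field k] [CommRing R] [Algebra k R] {ι : Type*}
    (x : ι → R) (T : ℕ) : Submodule k R :=
  (homogeneousSubmodule ι k T).map (aeval x : MvPolynomial ι k →ₐ[k] R).toLinearMap

theorem mem_Sx {ι : Type*} {x : ι → R} {T : ℕ} {u : R} :
    u ∈ Sx k x T ↔ ∃ F : MvPolynomial ι k, F.IsHomogeneous T ∧ aeval x F = u := by
  simp [Sx, Submodule.mem_map, mem_homogeneousSubmodule]

theorem one_mem_Sx {ι : Type*} (x : ι → R) : (1 : R) ∈ Sx k x 0 :=
  mem_Sx.2 ⟨1, isHomogeneous_one _ _, by simp⟩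

theorem mul_mem_Sx {ι : Type*} (x : ι → R) (a b : ℕ) (u v : R) (hu : u ∈ Sx k x a)
    (hv : v ∈ Sx k x b) : u * v ∈ Sx k x (a + b) := by
  obtain ⟨F, hF, rfl⟩ := mem_Sx.1 hu
  obtain ⟨G, hG, rfl⟩ := mem_Sx.1 hv
  exact mem_Sx.2 ⟨F * G, hF.mul hG, by simp⟩

theorem self_mem_Sx {ι : Type*} (x : ι → R) (j : ι) : x j ∈ Sx k x 1 :=
  mem_Sx.2 ⟨X j, isHomogeneous_X _ _, by simp⟩

theorem finite_Sx {ι : Type*} [Finite ι] (x : ι → R) (T : ℕ) : Module.Finite k (Sx k x T) :=
  Module.Finite.iff_fg.2 ((homogeneousSubmodule_fg _ _ T).map _)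

theorem y_pow_mul_Gr {S : ℕ → Submodule k R}
    (hmul : ∀ a b (u v : R), u ∈ S a → v ∈ S b → u * v ∈ S (a + b))
    {y : R} {D : ℕ} (c : ℕ → R) (hc : ∀ j, j < D → c j ∈ S (D - j))
    (hy : y ^ D = ∑ j ∈ Finset.range D, y ^ j * c j)
    {m : ℕ} {u : R} (hu : u ∈ Gr S y D m) (a : ℕ) : y ^ a * u ∈ Gr S y D (m + a) := by
  induction a with
  | zero => simpa using hu
  | succ a ih =>
    rw [pow_succ', mul_assoc]
    exact y_mul_mem_Gr hmul c hc hy ih

theorem Gr_mul {S : ℕ → Submodule k R}
    (hmul : ∀ a b (u v : R), u ∈ S a → v ∈ S b → u * v ∈ S (a + b))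
    {y : R} {D : ℕ} (c : ℕ → R) (hc : ∀ j, j < D → c j ∈ S (D - j))
    (hy : y ^ D = ∑ j ∈ Finset.range D, y ^ j * c j)
    (m n : ℕ) (u v : R) (hu : u ∈ Gr S y D m) (hv : v ∈ Gr S y D n) :
    u * v ∈ Gr S y D (m + n) := by
  obtain ⟨w, hw, hw0, rfl⟩ := hu
  rw [Finset.sum_mul]
  refine Submodule.sum_mem _ fun a _ => ?_
  by_cases ham : a ≤ m
  · have h1 := y_pow_mul_Gr hmul c hc hy (S_mul_mem_Gr hmul (hw a ham) hv) a
    have he : n + (m - a) + a = m + n := by omega
    rw [he] at h1
    rwa [mul_assoc]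
  · rw [hw0 a (by omega)]
    simp

/-- a homogeneous polynomial evaluated at elements of `G 1` of a multiplicative family. -/
theorem aeval_mem_of_graded {κ : Type*} (G : ℕ → Submodule k R) (h1 : (1 : R) ∈ G 0)
    (hmul : ∀ a b (u v : R), u ∈ G a → v ∈ G b → u * v ∈ G (a + b))
    (w : κ → R) (hw : ∀ l, w l ∈ G 1) {F : MvPolynomial κ k} {m : ℕ} (hF : F.IsHomogeneous m) :
    aeval w F ∈ G m := by
  classical
  rw [aeval_def, eval₂_eq]
  refine Submodule.sum_mem _ fun d hd => ?_
  rw [← Algebra.smul_def]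
  refine Submodule.smul_mem _ _ ?_
  have hpow : ∀ l n, w l ^ n ∈ G n := by
    intro l n
    induction n with
    | zero => simpa using h1
    | succ n ih =>
      rw [pow_succ]
      exact hmul _ _ _ _ ih (hw l)
  have h2 := prod_mem_S h1 hmul d.support (fun l => w l ^ d l) (fun l => d l)
    (fun l _ => hpow l (d l))
  have h3 : ∑ l ∈ d.support, d l = m := by
    have := hF (mem_support_iff.1 hd)
    rw [← this, Finsupp.weight_apply, Finsupp.sum]
    simp
  rwa [h3] at h2

end graded

section poly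

variable {k : Type*} [Field k] {κ : Type*}

/-- the maximal ideal of the point `s`, as the ideal generated by the `X l - s l`. -/
noncomputable def mId (s : κ → k) : Ideal (MvPolynomial κ k) :=
  Ideal.span (Set.range fun l => X l - C (s l))

theorem totalDegree_aeval_le_of_le_one {τ : Type*} (f : κ → MvPolynomial τ k)
    (hf : ∀ l, (f l).totalDegree ≤ 1) (F : MvPolynomial κ k) :
    (aeval f F : MvPolynomial τ k).totalDegree ≤ F.totalDegree := by
  classical
  rw [aeval_def, eval₂_eq]
  refine totalDegree_finsetSum_le fun d hd => ?_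
  refine (totalDegree_mul _ _).trans ?_
  have h1 : (algebraMap k (MvPolynomial τ k) (coeff d F)).totalDegree = 0 := by
    rw [MvPolynomial.algebraMap_eq]
    exact totalDegree_C _
  rw [h1, zero_add]
  refine (totalDegree_finsetProd _ _).trans ?_
  refine le_trans (Finset.sum_le_sum fun l _ => ?_) (le_totalDegree hd)
  refine (totalDegree_pow _ _).trans ?_
  calc d l * (f l).totalDegree ≤ d l * 1 := Nat.mul_le_mul_left _ (hf l)
    _ = d l := mul_one _

theorem totalDegree_X_add_C_le (l : κ) (a : k) : (X l + C a : MvPolynomial κ k).totalDegree ≤ 1 := by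
  refine (totalDegree_add _ _).trans ?_
  simp

variable {R : Type*} [CommRing R] [Algebra k R]

/-- a polynomial of degree `≤ T` and of order `≥ n` at `s` (`T ≤ n + J`) has image in
`∑_{i ≤ J} Gr (T - i)`; the order is expressed by the translated polynomial. -/
theorem exists_sum_Gr_of_comp (φ : MvPolynomial κ k →ₐ[k] R) (s : κ → k) {S : ℕ → Submodule k R}
    (h1 : (1 : R) ∈ S 0)
    (hmul : ∀ a b (u v : R), u ∈ S a → v ∈ S b → u * v ∈ S (a + b))
    {y : R} {D : ℕ} (hD : 0 < D) (c : ℕ → R) (hc : ∀ j, j < D → c j ∈ S (D - j))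
    (hy : y ^ D = ∑ j ∈ Finset.range D, y ^ j * c j)
    (hz : ∀ l, φ (X l - C (s l)) ∈ Gr S y D 1)
    {T n J : ℕ} (hnJ : T ≤ n + J) {F : MvPolynomial κ k} (hT : F.totalDegree ≤ T)
    (hcomp : ∀ j, j < n → homogeneousComponent j
      (aeval (fun l => X l + C (s l)) F : MvPolynomial κ k) = 0) :
    ∃ u' : ℕ → R, (∀ i, i ≤ T → u' i ∈ Gr S y D (T - i)) ∧
        (∀ i, T < i → u' i = 0) ∧ φ F = ∑ i ∈ Finset.range (J + 1), u' i := by
  classical
  let τ : MvPolynomial κ k →ₐ[k] MvPolynomial κ k := aeval (fun l => X l + C (s l))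
  let τ' : MvPolynomial κ k →ₐ[k] MvPolynomial κ k := aeval (fun l => X l - C (s l))
  have hττ : ∀ G, τ' (τ G) = G := by
    intro G
    have : τ'.comp τ = AlgHom.id k _ := by
      ext l
      simp [τ, τ', algHom_C]
    exact congrArg (fun h : MvPolynomial κ k →ₐ[k] MvPolynomial κ k => h G) this
  set G := τ F with hG
  have hGdeg : G.totalDegree ≤ T :=
    (totalDegree_aeval_le_of_le_one _ (fun l => totalDegree_X_add_C_le l (s l)) F).trans hT
  -- the pieces
  refine ⟨fun i => if i ≤ T then φ (τ' (homogeneousComponent (T - i) G)) else 0, ?_, ?_, ?_⟩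
  · intro i hi
    simp only [hi, if_true]
    have h4 : ∀ H : MvPolynomial κ k, φ (τ' H) = aeval (fun l => φ (X l - C (s l))) H := by
      intro H
      have : φ.comp τ' = aeval (fun l => φ (X l - C (s l))) := by
        ext l
        simp [τ']
      exact congrArg (fun h : MvPolynomial κ k →ₐ[k] R => h H) this
    rw [h4]
    exact aeval_mem_of_graded (Gr S y D) (Gr_zero_mem hD h1) (Gr_mul hmul c hc hy) _ hz
      (homogeneousComponent_isHomogeneous _ _)
  · intro i hi
    have : ¬ i ≤ T := by omega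
    simp [this]
  · have h5 : G = ∑ i ∈ Finset.range (T + 1), homogeneousComponent i G := by
      conv_lhs => rw [← sum_homogeneousComponent G]
      refine Finset.sum_subset ?_ ?_
      · intro i hi
        rw [Finset.mem_range] at hi ⊢
        omega
      · intro i _ hi
        refine homogeneousComponent_eq_zero _ _ ?_
        rw [Finset.mem_range] at hi
        omega
    have h6 : φ F = ∑ i ∈ Finset.range (T + 1), φ (τ' (homogeneousComponent i G)) := by
      calc φ F = φ (τ' G) := by rw [hG, hττ]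
        _ = φ (τ' (∑ i ∈ Finset.range (T + 1), homogeneousComponent i G)) := by rw [← h5]
        _ = _ := by rw [map_sum, map_sum]
    rw [h6, ← Finset.sum_range_reflect]
    simp only [Nat.add_sub_cancel]
    rcases le_total (T + 1) (J + 1) with hTJ | hTJ
    · rw [← Finset.sum_subset (Finset.range_mono hTJ)]
      · refine Finset.sum_congr rfl fun i hi => ?_
        have : i ≤ T := by
          rw [Finset.mem_range] at hi
          omega
        simp [this]
      · intro i _ hi
        have : ¬ i ≤ T := by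
          rw [Finset.mem_range] at hi
          omega
        simp [this]
    · rw [← Finset.sum_subset (Finset.range_mono hTJ)]
      · refine Finset.sum_congr rfl fun i hi => ?_
        have : i ≤ T := by
          rw [Finset.mem_range] at hi
          omega
        simp [this]
      · intro i hi hi2
        rw [Finset.mem_range] at hi hi2
        rw [hcomp (T - i) (by omega)]
        simp

/-- the same with the order expressed by a power of the maximal ideal. -/
theorem exists_sum_Gr (φ : MvPolynomial κ k →ₐ[k] R) (s : κ → k) {S : ℕ → Submodule k R}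
    (h1 : (1 : R) ∈ S 0)
    (hmul : ∀ a b (u v : R), u ∈ S a → v ∈ S b → u * v ∈ S (a + b))
    {y : R} {D : ℕ} (hD : 0 < D) (c : ℕ → R) (hc : ∀ j, j < D → c j ∈ S (D - j))
    (hy : y ^ D = ∑ j ∈ Finset.range D, y ^ j * c j)
    (hz : ∀ l, φ (X l - C (s l)) ∈ Gr S y D 1)
    {T n J : ℕ} (hnJ : T ≤ n + J) {F : MvPolynomial κ k} (hT : F.totalDegree ≤ T)
    (hF : F ∈ mId s ^ n) :
    ∃ u' : ℕ → R, (∀ i, i ≤ T → u' i ∈ Gr S y D (T - i)) ∧
        (∀ i, T < i → u' i = 0) ∧ φ F = ∑ i ∈ Finset.range (J + 1), u' i := by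
  refine exists_sum_Gr_of_comp φ s h1 hmul hD c hc hy hz hnJ hT ?_
  let τ : MvPolynomial κ k →ₐ[k] MvPolynomial κ k := aeval (fun l => X l + C (s l))
  set G := τ F with hG
  have hGord : G ∈ idealOfVars κ k ^ n := by
    have h2 : Ideal.map τ (mId s) ≤ idealOfVars κ k := by
      rw [mId, Ideal.map_span, Ideal.span_le]
      rintro _ ⟨_, ⟨l, rfl⟩, rfl⟩
      have : τ (X l - C (s l)) = X l := by
        simp [τ, algHom_C]
      rw [this]
      exact Ideal.subset_span ⟨l, rfl⟩
    have h3 : G ∈ Ideal.map τ (mId s ^ n) := Ideal.mem_map_of_mem _ hF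
    rw [Ideal.map_pow] at h3
    exact Ideal.pow_right_mono h2 n h3
  intro j hj
  rw [homogeneousComponent_eq_zero']
  intro d hd hdj
  have := (mem_pow_idealOfVars_iff n G).1 hGord d hd
  omega

end poly

end Vale.Agent.P054.T2.H431
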