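import Mathlib
import Vale.Agent.P054.T2.H431.WPrime
import Vale.Agent.P054.T2.H163.Hilb

/-!
# P054 / T2, leaf (MD): the multiplicity dichotomy

`P` a prime of `k[z]`, `s` a point.  `hF P T` is at most the dimension of `k[z] / (P + m_s ^ n)`
plus the dimension of the image of the polynomials of degree `≤ T` and order `≥ n` at `s`,
as soon as `P` is generated in degree `≤ J` and `n + J ≤ T + 1`.
-/

namespace Vale.Agent.P054.T2.H431

open scoped BigOperators
open MvPolynomial Vale.Agent.P054.T2.H163 Vale.Agent.P054.T2.H441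

variable {k : Type*} [Field k] {κ : Type*}

theorem mId_eq (s : κ → k) : mId s = m s := by
  classical
  apply le_antisymm
  · rw [mId, Ideal.span_le]
    rintro _ ⟨l, rfl⟩
    simp [mem_m]
  · intro F hF
    rw [mem_m] at hF
    -- F = F - C (F s) is in the ideal
    have key : ∀ G : MvPolynomial κ k, G - C (eval s G) ∈ mId s := by
      intro G
      induction G using MvPolynomial.induction_on with
      | C a => simp
      | add p q hp hq =>
        have : p + q - C (eval s (p + q)) = (p - C (eval s p)) + (q - C (eval s q)) := by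
          simp only [map_add]; ring
        rw [this]
        exact Ideal.add_mem _ hp hq
      | mul_X p i hp =>
        have : p * X i - C (eval s (p * X i)) =
            (p - C (eval s p)) * X i + C (eval s p) * (X i - C (s i)) := by
          simp only [map_mul, eval_X]; ring
        rw [this]
        exact Ideal.add_mem _ (Ideal.mul_mem_right _ _ hp)
          (Ideal.mul_mem_left _ _ (Ideal.subset_span ⟨i, rfl⟩))
    have := key F
    rwa [hF, map_zero, sub_zero] at this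

/-- polynomials of degree `≤ T` and order `≥ n` at `s`. -/
noncomputable def Nm (s : κ → k) (T n : ℕ) : Submodule k (MvPolynomial κ k) :=
  restrictTotalDegree κ k T ⊓ (m s ^ n).restrictScalars k

theorem mem_Nm {s : κ → k} {T n : ℕ} {F : MvPolynomial κ k} :
    F ∈ Nm s T n ↔ F.totalDegree ≤ T ∧ F ∈ m s ^ n := by
  rw [Nm, Submodule.mem_inf, mem_restrictTotalDegree, Submodule.restrictScalars_mem]

/-- projection data at the point `s` of the variety of `P`. -/
def Proj (P : Ideal (MvPolynomial κ k)) (s : κ → k) {ι : Type*}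
    (x : ι → MvPolynomial κ k ⧸ P) (D₁ : ℕ) : Prop :=
  ∃ (y : MvPolynomial κ k ⧸ P) (D : ℕ) (b : ℕ → MvPolynomial κ k ⧸ P), 0 < D ∧
    (∀ j, j < D → b j ∈ Sx k x (D - j)) ∧ y ^ D = ∑ j ∈ Finset.range D, y ^ j * b j ∧
    (∀ l, Ideal.Quotient.mkₐ k P (X l - C (s l)) ∈ Gr (Sx k x) y D 1) ∧
    (∃ i₀, x i₀ ≠ 0) ∧ SRank (Sx k x) D₁

/-- **(MD1)**. -/
theorem md1 (P : Ideal (MvPolynomial κ k)) [P.IsPrime] (s : κ → k) {ι : Type*} [Finite ι]
    (x : ι → MvPolynomial κ k ⧸ P) {D₁ : ℕ} (hp : Proj P s x D₁) (J : ℕ) :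
    ∃ C : ℕ, ∀ T n, T ≤ n + J →
      Module.finrank k ((Nm s T n).map (Ideal.Quotient.mkₐ k P).toLinearMap) ≤
        D₁ * Module.finrank k (Sx k x (T + C)) := by
  classical
  obtain ⟨y, D, b, hD, hb, hy, hz, ⟨i₀, hi₀⟩, hyp⟩ := hp
  obtain ⟨C, hC⟩ := nd (Sx k x) (one_mem_Sx x) (mul_mem_Sx x) (finite_Sx x) hyp
    (self_mem_Sx x i₀) hi₀ y D J
  refine ⟨C, fun T n hTn => hC T _ ?_⟩
  rintro _ ⟨F, hF, rfl⟩
  obtain ⟨hF1, hF2⟩ := mem_Nm.1 hF
  rw [← mId_eq] at hF2
  exact exists_sum_Gr (Ideal.Quotient.mkₐ k P) s (one_mem_Sx x) (mul_mem_Sx x) hD b hb hy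
    hz (n := n) (J := J) hTn hF1 hF2

/-- truncation of the coefficients at `s`. -/
theorem exists_trunc [Finite κ] {G : Set (MvPolynomial κ k)} {J : ℕ}
    (hG : ∀ g ∈ G, g.totalDegree ≤ J)
    (s : κ → k) {T n : ℕ} (hn : n + J ≤ T + 1) {A : MvPolynomial κ k} (hA : A ∈ Ideal.span G) :
    ∃ A₁ ∈ Ideal.span G, A₁.totalDegree ≤ T ∧ A - A₁ ∈ m s ^ n := by
  classical
  rcases Nat.eq_zero_or_pos n with rfl | hn0
  · exact ⟨0, Ideal.zero_mem _, by simp, by simp⟩
  obtain ⟨N, f, g, hfg⟩ := Submodule.mem_span_set'.1 hA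
  choose f' hf' hf'm using fun i => taylor s (n - 1) (f i)
  refine ⟨∑ i, f' i * (g i : MvPolynomial κ k), ?_, ?_, ?_⟩
  · exact Ideal.sum_mem _ fun i _ => Ideal.mul_mem_left _ _ (Ideal.subset_span (g i).2)
  · refine totalDegree_finsetSum_le fun i _ => (totalDegree_mul _ _).trans ?_
    have h1 := (mem_restrictTotalDegree _ _ _).1 (hf' i)
    have h2 := hG _ (g i).2
    omega
  · rw [← hfg, ← Finset.sum_sub_distrib]
    refine Ideal.sum_mem _ fun i _ => ?_
    have : f i • (g i : MvPolynomial κ k) - f' i * (g i : MvPolynomial κ k) =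
        (f i - f' i) * (g i : MvPolynomial κ k) := by
      rw [smul_eq_mul]; ring
    rw [this]
    have h3 := hf'm i
    have h4 : n - 1 + 1 = n := by omega
    rw [h4] at h3
    exact Ideal.mul_mem_right _ _ h3

/-- **(MD2)**. -/
theorem md2 [Finite κ] (P : Ideal (MvPolynomial κ k)) {G : Set (MvPolynomial κ k)}
    (hPG : P = Ideal.span G) {J : ℕ} (hG : ∀ g ∈ G, g.totalDegree ≤ J)
    (s : κ → k) {T n : ℕ} (hn : n + J ≤ T + 1)
    (hfin : Module.Finite k (MvPolynomial κ k ⧸ (P ⊔ m s ^ n))) :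
    hF P T ≤ Module.finrank k (MvPolynomial κ k ⧸ (P ⊔ m s ^ n)) +
      Module.finrank k ((Nm s T n).map (Ideal.Quotient.mkₐ k P).toLinearMap) := by
  classical
  set U : Submodule k (MvPolynomial κ k ⧸ P) :=
    (restrictTotalDegree κ k T).map (Ideal.Quotient.mkₐ k P).toLinearMap with hU
  have hle : P ≤ P ⊔ m s ^ n := le_sup_left
  let π : (MvPolynomial κ k ⧸ P) →ₐ[k] (MvPolynomial κ k ⧸ (P ⊔ m s ^ n)) :=
    Ideal.Quotient.factorₐ k hle
  let g : U →ₗ[k] (MvPolynomial κ k ⧸ (P ⊔ m s ^ n)) := π.toLinearMap.comp U.subtype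
  have hUfin : Module.Finite k U := by
    have : Module.Finite k (restrictTotalDegree κ k T) := inferInstance
    exact Module.Finite.map _ _
  have h1 := LinearMap.finrank_range_add_finrank_ker g
  have h2 : Module.finrank k (LinearMap.range g) ≤
      Module.finrank k (MvPolynomial κ k ⧸ (P ⊔ m s ^ n)) := Submodule.finrank_le _
  have h3 : Module.finrank k (LinearMap.ker g) ≤
      Module.finrank k ((Nm s T n).map (Ideal.Quotient.mkₐ k P).toLinearMap) := by
    have hNfin : Module.Finite k ((Nm s T n).map (Ideal.Quotient.mkₐ k P).toLinearMap) := by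
      have h4 : (Nm s T n).map (Ideal.Quotient.mkₐ k P).toLinearMap ≤ U :=
        Submodule.map_mono inf_le_left
      exact Submodule.finiteDimensional_of_le h4
    let h : LinearMap.ker g →ₗ[k] (MvPolynomial κ k ⧸ P) := U.subtype.comp (LinearMap.ker g).subtype
    have hinj : Function.Injective h := by
      intro a b hab
      exact Subtype.ext (Subtype.ext hab)
    rw [← LinearMap.finrank_range_of_inj hinj]
    refine Submodule.finrank_mono ?_
    rintro _ ⟨⟨⟨u, hu⟩, huk⟩, rfl⟩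
    obtain ⟨F, hF, rfl⟩ := hu
    have hFT := (mem_restrictTotalDegree _ _ _).1 hF
    have h5 : F ∈ P ⊔ m s ^ n := by
      have h6 : Ideal.Quotient.mk (P ⊔ m s ^ n) F = 0 := huk
      exact Ideal.Quotient.eq_zero_iff_mem.1 h6
    obtain ⟨A, hA, B, hB, hAB⟩ := Submodule.mem_sup.1 h5
    obtain ⟨A₁, hA₁, hA₁d, hA₁m⟩ := exists_trunc hG s hn (hPG ▸ hA)
    refine ⟨F - A₁, ⟨?_, ?_⟩, ?_⟩
    · exact (mem_restrictTotalDegree _ _ _).2 ((totalDegree_sub _ _).trans (max_le hFT hA₁d))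
    · have : F - A₁ = (A - A₁) + B := by rw [← hAB]; ring
      rw [this]
      exact Ideal.add_mem _ hA₁m hB
    · change Ideal.Quotient.mk P (F - A₁) = Ideal.Quotient.mk P F
      rw [Ideal.Quotient.eq]
      have : F - A₁ - F = - A₁ := by ring
      rw [this, hPG]
      exact (Ideal.span G).neg_mem hA₁
  calc hF P T = Module.finrank k U := rfl
    _ = Module.finrank k (LinearMap.range g) + Module.finrank k (LinearMap.ker g) := h1.symm
    _ ≤ _ := Nat.add_le_add h2 h3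

theorem le_of_pow_le_mul_pow {a b K : ℕ} (h : ∀ j, a ^ j ≤ K * b ^ j) : a ≤ b := by
  by_contra hab
  push Not at hab
  rcases Nat.eq_zero_or_pos b with rfl | hb
  · have := h 1
    simp at this
    omega
  · have hb' : (0 : ℝ) < b := by exact_mod_cast hb
    have h1 : (1 : ℝ) < (a : ℝ) / b := by
      rw [one_lt_div hb']
      exact_mod_cast hab
    obtain ⟨j, hj⟩ := pow_unbounded_of_one_lt (K : ℝ) h1
    have h2 : (a : ℝ) ^ j ≤ K * (b : ℝ) ^ j := by exact_mod_cast h j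
    rw [div_pow, lt_div_iff₀ (pow_pos hb' j)] at hj
    linarith

/-- **(MD3)**: the number of points of high multiplicity, separated by polynomials of
degree `≤ D`. -/
theorem md3 [Finite κ] (P : Ideal (MvPolynomial κ k)) {J : ℕ} (hJ : 1 ≤ J) {M Δ σ : ℕ}
    (hP : ∀ n, hF P n ≤ Δ * (n + 1) ^ σ) (hP1 : ∀ n, 1 ≤ hF P n)
    (Y : Finset (κ → k)) {D : ℕ} (hY : rkY Y D = Y.card)
    (hbad : ∀ p ∈ Y, ∃ T₀, ∀ T ≥ T₀,
      hF P T ≤ M * Module.finrank k (MvPolynomial κ k ⧸ (P ⊔ m p ^ (T + 1 - J)))) :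
    Y.card ≤ M * (D + 1) ^ σ := by
  classical
  -- a common threshold
  obtain ⟨T₁, hT₁⟩ : ∃ T₁, ∀ p ∈ Y, ∀ T ≥ T₁,
      hF P T ≤ M * Module.finrank k (MvPolynomial κ k ⧸ (P ⊔ m p ^ (T + 1 - J))) := by
    choose! t ht using hbad
    exact ⟨Y.sup t, fun p hp T hT => ht p hp T ((Finset.le_sup hp).trans hT)⟩
  have step : ∀ T, T₁ + J ≤ T → Y.card * hF P T ≤ M * hF P ((D + 1) * T) := by
    intro T hT
    have h1 := mult_sum_le P Y (T := D) (k := T - J) hY
    have h2 : T - J + 1 = T + 1 - J := by omega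
    rw [h2] at h1
    have h3 : (T + 1 - J) * D + (T - J) ≤ (D + 1) * T := by
      have h4 : (T + 1 - J) * D ≤ T * D := Nat.mul_le_mul_right _ (by omega)
      calc (T + 1 - J) * D + (T - J) ≤ T * D + T := Nat.add_le_add h4 (by omega)
        _ = (D + 1) * T := by ring
    calc Y.card * hF P T = ∑ _p ∈ Y, hF P T := by rw [Finset.sum_const, smul_eq_mul]
      _ ≤ ∑ p ∈ Y, M * Module.finrank k (MvPolynomial κ k ⧸ (P ⊔ m p ^ (T + 1 - J))) :=
          Finset.sum_le_sum fun p hp => hT₁ p hp T (by omega)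
      _ = M * ∑ p ∈ Y, Module.finrank k (MvPolynomial κ k ⧸ (P ⊔ m p ^ (T + 1 - J))) := by
          rw [Finset.mul_sum]
      _ ≤ M * hF P ((T + 1 - J) * D + (T - J)) := Nat.mul_le_mul_left _ h1
      _ ≤ M * hF P ((D + 1) * T) := Nat.mul_le_mul_left _ (hF_mono_deg P h3)
  set T₂ := T₁ + J with hT₂
  have iter : ∀ j, Y.card ^ j * hF P T₂ ≤ M ^ j * hF P ((D + 1) ^ j * T₂) := by
    intro j
    induction j with
    | zero => simp
    | succ j ih =>
      have h5 : T₂ ≤ (D + 1) ^ j * T₂ := Nat.le_mul_of_pos_left _ (pow_pos (by omega) _)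
      calc Y.card ^ (j + 1) * hF P T₂ = Y.card * (Y.card ^ j * hF P T₂) := by ring
        _ ≤ Y.card * (M ^ j * hF P ((D + 1) ^ j * T₂)) := Nat.mul_le_mul_left _ ih
        _ = M ^ j * (Y.card * hF P ((D + 1) ^ j * T₂)) := by ring
        _ ≤ M ^ j * (M * hF P ((D + 1) * ((D + 1) ^ j * T₂))) :=
            Nat.mul_le_mul_left _ (step _ h5)
        _ = M ^ (j + 1) * hF P ((D + 1) ^ (j + 1) * T₂) := by
            rw [show (D + 1) * ((D + 1) ^ j * T₂) = (D + 1) ^ (j + 1) * T₂ by ring]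
            ring
  refine le_of_pow_le_mul_pow (K := Δ * (T₂ + 1) ^ σ) fun j => ?_
  have h6 : (D + 1) ^ j * T₂ + 1 ≤ (D + 1) ^ j * (T₂ + 1) := by
    have : 1 ≤ (D + 1) ^ j := Nat.one_le_pow _ _ (by omega)
    calc (D + 1) ^ j * T₂ + 1 ≤ (D + 1) ^ j * T₂ + (D + 1) ^ j := Nat.add_le_add_left this _
      _ = _ := by ring
  calc Y.card ^ j ≤ Y.card ^ j * hF P T₂ := Nat.le_mul_of_pos_right _ (hP1 T₂)
    _ ≤ M ^ j * hF P ((D + 1) ^ j * T₂) := iter j
    _ ≤ M ^ j * (Δ * ((D + 1) ^ j * T₂ + 1) ^ σ) := Nat.mul_le_mul_left _ (hP _)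
    _ ≤ M ^ j * (Δ * ((D + 1) ^ j * (T₂ + 1)) ^ σ) := by gcongr
    _ = Δ * (T₂ + 1) ^ σ * (M * (D + 1) ^ σ) ^ j := by
        rw [mul_pow, mul_pow, ← pow_mul, ← pow_mul, mul_comm j σ]
        ring

end Vale.Agent.P054.T2.H431
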