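import Mathlib
import Vale.Agent.P054.T2.H431.MD
import Vale.Agent.P054.T2.H441.Dense2

/-!
# P054 / T2, leaf (MD), second part: good and bad points

Abstract form: `Sf` is any function bounding the dimension of the polynomials of degree `≤ T`
and order `≥ T + 1 - J` at `s` modulo `P`; `δP`, `δS` the degrees.
-/

namespace Vale.Agent.P054.T2.H431

open scoped BigOperators
open MvPolynomial Vale.Agent.P054.T2.H163 Vale.Agent.P054.T2.H441

theorem ascFactorial_shift (T c σ : ℕ) :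
    (T + c + 1).ascFactorial σ * (T + 1) ^ σ ≤ (T + 1 + c) ^ σ * (T + 1).ascFactorial σ := by
  induction σ with
  | zero => simp
  | succ σ ih =>
    rw [Nat.ascFactorial_succ, Nat.ascFactorial_succ, pow_succ, pow_succ]
    have h1 : (T + c + 1 + σ) * (T + 1) ≤ (T + 1 + c) * (T + 1 + σ) := by nlinarith
    calc (T + c + 1 + σ) * (T + c + 1).ascFactorial σ * ((T + 1) ^ σ * (T + 1))
        = ((T + c + 1).ascFactorial σ * (T + 1) ^ σ) * ((T + c + 1 + σ) * (T + 1)) := by ring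
      _ ≤ ((T + 1 + c) ^ σ * (T + 1).ascFactorial σ) * ((T + 1 + c) * (T + 1 + σ)) :=
          Nat.mul_le_mul ih h1
      _ = (T + 1 + c) ^ σ * (T + 1 + c) * ((T + 1 + σ) * (T + 1).ascFactorial σ) := by ring

theorem choose_shift (T c σ : ℕ) :
    (T + c + σ).choose σ * (T + 1) ^ σ ≤ (T + 1 + c) ^ σ * (T + σ).choose σ := by
  have h := ascFactorial_shift T c σ
  have h1 : (T + c + 1).ascFactorial σ = σ.factorial * (T + c + σ).choose σ := by
    rw [Nat.ascFactorial_eq_factorial_mul_choose]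
  have h2 : (T + 1).ascFactorial σ = σ.factorial * (T + σ).choose σ := by
    rw [Nat.ascFactorial_eq_factorial_mul_choose]
  rw [h1, h2] at h
  refine Nat.le_of_mul_le_mul_left ?_ (Nat.factorial_pos σ)
  calc σ.factorial * ((T + c + σ).choose σ * (T + 1) ^ σ)
      = σ.factorial * (T + c + σ).choose σ * (T + 1) ^ σ := by ring
    _ ≤ (T + 1 + c) ^ σ * (σ.factorial * (T + σ).choose σ) := h
    _ = σ.factorial * ((T + 1 + c) ^ σ * (T + σ).choose σ) := by ring

/-- shifts do not matter: `a * choose (T + c + σ) σ ≤ b * choose (T + σ) σ` for `T` large, if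
`a < b`. -/
theorem choose_shift_le {a b : ℕ} (hab : a < b) (c σ : ℕ) :
    ∃ T₀, ∀ T ≥ T₀, a * (T + c + σ).choose σ ≤ b * (T + σ).choose σ := by
  refine ⟨b * σ * c, fun T hT => ?_⟩
  have key : a * (T + 1 + c) ^ σ ≤ b * (T + 1) ^ σ := by
    have hpos : (0 : ℝ) < (T : ℝ) + 1 + c := by positivity
    have h1 : (1 : ℝ) + (σ : ℝ) * (-(c : ℝ) / (T + 1 + c)) ≤ (1 + (-(c : ℝ) / (T + 1 + c))) ^ σ := by
      refine one_add_mul_le_pow ?_ σ
      rw [le_div_iff₀ hpos]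
      nlinarith [hpos, (Nat.cast_nonneg c : (0 : ℝ) ≤ c), (Nat.cast_nonneg T : (0 : ℝ) ≤ T)]
    have h2 : (1 + (-(c : ℝ) / (T + 1 + c))) = ((T : ℝ) + 1) / (T + 1 + c) := by
      field_simp
      ring
    rw [h2, div_pow, le_div_iff₀ (pow_pos hpos σ)] at h1
    have h3 : (a : ℝ) ≤ b * (1 + (σ : ℝ) * (-(c : ℝ) / (T + 1 + c))) := by
      have h4 : (b : ℝ) * σ * c ≤ T := by exact_mod_cast hT
      have h5 : (b : ℝ) * ((σ : ℝ) * (c / (T + 1 + c))) ≤ 1 := by
        rw [← mul_div_assoc, ← mul_div_assoc, div_le_one hpos]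
        have : (0 : ℝ) ≤ c := Nat.cast_nonneg c
        nlinarith
      have h6 : (a : ℝ) + 1 ≤ b := by exact_mod_cast hab
      have h7 : (b : ℝ) * (1 + (σ : ℝ) * (-(c : ℝ) / (T + 1 + c))) =
          b - b * ((σ : ℝ) * (c / (T + 1 + c))) := by ring
      rw [h7]
      linarith
    have h8 : (a : ℝ) * (T + 1 + c) ^ σ ≤ b * (T + 1) ^ σ := by
      calc (a : ℝ) * (T + 1 + c) ^ σ
          ≤ b * (1 + (σ : ℝ) * (-(c : ℝ) / (T + 1 + c))) * (T + 1 + c) ^ σ :=
            mul_le_mul_of_nonneg_right h3 (pow_nonneg hpos.le σ)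
        _ = b * ((1 + (σ : ℝ) * (-(c : ℝ) / (T + 1 + c))) * (T + 1 + c) ^ σ) := by ring
        _ ≤ b * (T + 1) ^ σ := mul_le_mul_of_nonneg_left h1 (Nat.cast_nonneg b)
    exact_mod_cast h8
  refine Nat.le_of_mul_le_mul_right ?_ (pow_pos (Nat.succ_pos T) σ)
  calc a * (T + c + σ).choose σ * (T + 1) ^ σ = a * ((T + c + σ).choose σ * (T + 1) ^ σ) := by ring
    _ ≤ a * ((T + 1 + c) ^ σ * (T + σ).choose σ) := Nat.mul_le_mul_left _ (choose_shift T c σ)
    _ = a * (T + 1 + c) ^ σ * (T + σ).choose σ := by ring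
    _ ≤ b * (T + 1) ^ σ * (T + σ).choose σ := Nat.mul_le_mul_right _ key
    _ = b * (T + σ).choose σ * (T + 1) ^ σ := by ring

variable {k : Type*} [Field k] {κ : Type*}

theorem finite_quot_mpow [Finite κ] (P : Ideal (MvPolynomial κ k)) (s : κ → k) (n : ℕ) :
    Module.Finite k (MvPolynomial κ k ⧸ (P ⊔ m s ^ n)) := by
  classical
  rcases Nat.eq_zero_or_pos n with rfl | hn
  · have : P ⊔ m s ^ 0 = ⊤ := by simp
    rw [this]
    have : Subsingleton (MvPolynomial κ k ⧸ (⊤ : Ideal (MvPolynomial κ k))) :=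
      Ideal.Quotient.subsingleton_iff.2 rfl
    infer_instance
  · have hfin : Module.Finite k (restrictTotalDegree κ k (n - 1)) := inferInstance
    refine Module.Finite.of_surjective
      ((Ideal.Quotient.mkₐ k (P ⊔ m s ^ n)).toLinearMap.comp
        (restrictTotalDegree κ k (n - 1)).subtype) ?_
    intro q
    obtain ⟨F, rfl⟩ := Ideal.Quotient.mk_surjective q
    obtain ⟨G, hG, hFG⟩ := taylor s (n - 1) F
    refine ⟨⟨G, hG⟩, ?_⟩
    change Ideal.Quotient.mk (P ⊔ m s ^ n) G = Ideal.Quotient.mk (P ⊔ m s ^ n) F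
    rw [Ideal.Quotient.eq]
    have h1 : n - 1 + 1 = n := by omega
    rw [h1] at hFG
    have : G - F = -(F - G) := by ring
    rw [this]
    exact (P ⊔ m s ^ n).neg_mem (Ideal.mem_sup_right hFG)

/-- **bad points have high multiplicity**. -/
theorem bad_bound [Finite κ] (P : Ideal (MvPolynomial κ k)) {G : Set (MvPolynomial κ k)}
    (hPG : P = Ideal.span G) {J : ℕ} (hG : ∀ g ∈ G, g.totalDegree ≤ J) (s : κ → k)
    (Sf : ℕ → ℕ) {C : ℕ}
    (hN : ∀ T, J ≤ T + 1 →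
      Module.finrank k ((Nm s T (T + 1 - J)).map (Ideal.Quotient.mkₐ k P).toLinearMap) ≤ Sf (T + C))
    {σ δP cP δS cS : ℕ} (hPlow : ∀ n, δP * (n + σ).choose σ ≤ hF P (n + cP))
    (hSup : ∀ n, Sf n ≤ δS * (n + cS + σ).choose σ) (hbad : 2 * δS < δP) :
    ∃ T₀, ∀ T ≥ T₀,
      hF P T ≤ 2 * Module.finrank k (MvPolynomial κ k ⧸ (P ⊔ m s ^ (T + 1 - J))) := by
  obtain ⟨T₁, hT₁⟩ := choose_shift_le hbad (cP + C + cS) σ
  refine ⟨T₁ + cP + J, fun T hT => ?_⟩
  have h1 := md2 P hPG hG s (T := T) (n := T + 1 - J) (by omega) (finite_quot_mpow P s _)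
  have h2 := hN T (by omega)
  have h3 := hSup (T + C)
  have h4 := hT₁ (T - cP) (by omega)
  have h5 := hPlow (T - cP)
  have e1 : T - cP + (cP + C + cS) + σ = T + C + cS + σ := by omega
  have e2 : T - cP + cP = T := by omega
  rw [e1] at h4
  rw [e2] at h5
  have h6 : 2 * Sf (T + C) ≤ hF P T :=
    calc 2 * Sf (T + C) ≤ 2 * (δS * (T + C + cS + σ).choose σ) := Nat.mul_le_mul_left _ h3
      _ = 2 * δS * (T + C + cS + σ).choose σ := by ring
      _ ≤ δP * (T - cP + σ).choose σ := h4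
      _ ≤ hF P T := h5
  omega

/-- **good points**. -/
theorem good_bound [Finite κ] (P : Ideal (MvPolynomial κ k)) (Sf : ℕ → ℕ)
    {σ δP cP δS cS : ℕ} (hPup : ∀ n, hF P n ≤ δP * (n + cP + σ).choose σ)
    (hSlow : ∀ n, δS * (n + σ).choose σ ≤ Sf (n + cS)) (hgood : δP ≤ 2 * δS) (n : ℕ) :
    hF P n ≤ 2 * Sf (n + cP + cS) :=
  calc hF P n ≤ δP * (n + cP + σ).choose σ := hPup n
    _ ≤ 2 * δS * (n + cP + σ).choose σ := Nat.mul_le_mul_right _ hgood
    _ = 2 * (δS * (n + cP + σ).choose σ) := by ring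
    _ ≤ 2 * Sf (n + cP + cS) := Nat.mul_le_mul_left _ (hSlow (n + cP))

/-- **(MD)**: the bad points of a finite set separated by polynomials of degree `≤ D` are at
most `2 * (D + 1) ^ σ`; all other points satisfy the bound needed by the final count. -/
theorem md_dichotomy [Finite κ] (P : Ideal (MvPolynomial κ k)) {G : Set (MvPolynomial κ k)}
    (hPG : P = Ideal.span G) {J : ℕ} (hJ : 1 ≤ J) (hG : ∀ g ∈ G, g.totalDegree ≤ J)
    {σ δP cP Δ : ℕ} (hPlow : ∀ n, δP * (n + σ).choose σ ≤ hF P (n + cP))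
    (hPup : ∀ n, hF P n ≤ δP * (n + cP + σ).choose σ)
    (hP : ∀ n, hF P n ≤ Δ * (n + 1) ^ σ) (hP1 : ∀ n, 1 ≤ hF P n)
    (Y : Finset (κ → k)) {D : ℕ} (hY : rkY Y D = Y.card)
    (Sf : (κ → k) → ℕ → ℕ) (C δS cS : (κ → k) → ℕ)
    (hN : ∀ s ∈ Y, ∀ T, J ≤ T + 1 →
      Module.finrank k ((Nm s T (T + 1 - J)).map (Ideal.Quotient.mkₐ k P).toLinearMap) ≤
        Sf s (T + C s))
    (hSup : ∀ s ∈ Y, ∀ n, Sf s n ≤ δS s * (n + cS s + σ).choose σ)
    (hSlow : ∀ s ∈ Y, ∀ n, δS s * (n + σ).choose σ ≤ Sf s (n + cS s)) :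
    ∃ B ⊆ Y, B.card ≤ 2 * (D + 1) ^ σ ∧
      ∀ s ∈ Y, s ∉ B → ∀ n, hF P n ≤ 2 * Sf s (n + cP + cS s) := by
  classical
  have hsep : ∀ B : Finset (κ → k), B ⊆ Y → rkY B D = B.card := by
    intro B hB
    have h1 : Y = B ∪ (Y \ B) := (Finset.union_sdiff_of_subset hB).symm
    have h2 := rkY_union_le B (Y \ B) D
    rw [← h1, hY] at h2
    have h3 := rkY_le_card (Y \ B) D
    have h4 := rkY_le_card B D
    have h5 := Finset.card_sdiff_add_card_eq_card hB
    omega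
  refine ⟨Y.filter (fun s => 2 * δS s < δP), Finset.filter_subset _ _, ?_, ?_⟩
  · refine md3 P hJ hP hP1 _ (hsep _ (Finset.filter_subset _ _)) ?_
    intro s hs
    obtain ⟨hs1, hs2⟩ := Finset.mem_filter.1 hs
    exact bad_bound P hPG hG s (Sf s) (hN s hs1) hPlow (hSup s hs1) hs2
  · intro s hs hsB n
    have : δP ≤ 2 * δS s := by
      by_contra h
      exact hsB (Finset.mem_filter.2 ⟨hs, by omega⟩)
    exact good_bound P (Sf s) hPup (hSlow s hs) this n

end Vale.Agent.P054.T2.H431
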