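import Vale.Agent.P054.T2.H431.WTA
import Vale.Agent.P054.T2.H701.GoodSide
import Vale.Agent.P054.T2.H395.SideJets
import Vale.Agent.P054.T2.H428.EdgeB

set_option linter.all false

/-!
# P054 / T2, [c-A'] and [SIGW]

`cnt_wrong_off`: wrong type, `w ∉ V`: the class is countable from its first end point.
`sigma_lt_of_wrong`: the wrong type occurs only for `σ ≤ n - 1`.
-/

open MvPolynomial Module

namespace Vale.Agent.P054.T2.H431

open scoped BigOperators
open H580 (IsFilt hilbF rkF Vw isFilt_Vw)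
open H441 (hF rkY)
open H455 (Sep)
open H163 (m mem_m)
open H192 (Iso)
open SecC (ZI ZZ pt HL wt hx Side linL lin_apply wt_ne pt_injective EdgeS ZInj GenW)

variable {n : ℕ} {A : Finset (ZZ n × ZZ n)} {W D σ v : ℕ} (S : Side n A W D σ v)

/-- a comparison of Hilbert functions makes the class countable -/
theorem cnt_of_hF_le (hv : v = 0) {e : ZZ n × ZZ n} (N G : ℕ)
    (hfact : ∃ C, ∀ T, hF (S.Pr e) T ≤ hilbF (Vw ℝ (wt W)) (S.P e) (T + C))
    (hsep : Sep (fun e' : ZZ n × ZZ n => pt e'.2) N (S.cls e)) : S.Cnt N G e := by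
  classical
  obtain ⟨C, hC⟩ := hfact
  refine Or.inr ⟨hv, N + 1 + C, ?_⟩
  have hinj : Set.InjOn (fun e' : ZZ n × ZZ n => pt e'.2) (S.cls e) := by
    intro a ha b hb hab
    have h1 := (S.mem_cls.1 ha).2.1
    have h2 := (S.mem_cls.1 hb).2.1
    exact Prod.ext (h1.trans h2.symm) (SecC.pt_injective hab)
  have hcard : ((S.cls e).image fun e' : ZZ n × ZZ n => pt e'.2).card = (S.cls e).card :=
    Finset.card_image_of_injOn hinj
  have key := H701.good_count' (K := ℝ) (S.Pr e) (hilbF (Vw ℝ (wt W)) (S.P e))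
    (fun a b h => (H580.isFilt_Vw (wt W) (wt_ne S.hW)).hilbF_mono (S.P e) h)
    (fun _ => 0)
    ((S.cls e).image fun e' : ZZ n × ZZ n => pt e'.2) (N := N) (s := σ) (a := C) (T₁ := 0)
    (H701.rkY_image_of_sep hsep) ?_ ?_ ?_
  · rw [hcard] at key
    exact key
  · intro r hr k
    obtain ⟨e', he', rfl⟩ := Finset.mem_image.1 hr
    refine ⟨_, ?_, ?_, H395.hjet S e e' he' k⟩
    · have h1 : m (pt e'.2) ≤ (H930.mx (hx e'.1 e'.2)).comap (rename (R := ℝ) Sum.inr) := by
        intro F hF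
        rw [mem_m] at hF
        rw [Ideal.mem_comap, H930.mem_mx, eval_rename]
        exact hF
      refine ((Ideal.pow_right_mono h1 (k + 1)).trans (Ideal.le_comap_pow _ _)).trans ?_
      exact Ideal.comap_mono (H930.pow_le_J _ _ _)
    · have h2 : S.Pr e = S.Pr e' := by
        have := (S.mem_cls.1 he').2.2
        unfold Side.Pr
        rw [this]
      rw [h2]
      exact Ideal.comap_mono (H930.germ_le_J _ _ _)
  · intro T _
    simpa using hC T
  · intro T₀
    exact ⟨T₀, le_rfl, by simp⟩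

/-- **[c-A']**: wrong type, the base point is not in the affine hull of the class. -/
theorem cnt_wrong_off (hv : v = 0) {e : ZZ n × ZZ n} (he : e ∈ A) (hE : EdgeS S e)
    (hwV : e.1 - e.2 ∉ S.V e) (hiso : Iso (S.V e ⊔ Submodule.span ℝ {e.1 - e.2}))
    (hfr : finrank ℝ (S.V e ⊔ Submodule.span ℝ {e.1 - e.2} : Submodule ℝ (ZZ n)) = n + 1)
    (hninj : ¬ ZInj (S.V e ⊔ Submodule.span ℝ {e.1 - e.2})) (N G : ℕ)
    (hsep : Sep (fun e' : ZZ n × ZZ n => pt e'.2) N (S.cls e)) : S.Cnt N G e := by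
  obtain ⟨n₀, hn₀V, hn₀, hn₀z, hker, hG⟩ := (hE.genww hiso hfr).resolve_left hninj
  obtain ⟨D', G', hD', hG'h, hG's, hG'n⟩ := hG hv
  refine cnt_of_hF_le S hv N G ?_ hsep
  refine hF_le_off S he hwV _ le_sup_left ?_ n₀ hn₀V hn₀ hn₀z hker hD' hG'h hG's hG'n
  exact Submodule.mem_sup_right (Submodule.mem_span_singleton_self _)

/-- the functional `∑ α_i ζ_i` -/
def zfun (α : Fin (n + 1) → ℝ) : ZZ n →ₗ[ℝ] ℝ where
  toFun x := ∑ i, α i * x.1 i
  map_add' := by
    intro x y
    simp only [Prod.fst_add, Pi.add_apply, mul_add, Finset.sum_add_distrib]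
  map_smul' := by
    intro c x
    simp only [Prod.smul_fst, Pi.smul_apply, smul_eq_mul, RingHom.id_apply, Finset.mul_sum]
    exact Finset.sum_congr rfl fun i _ => by ring

theorem zfun_apply (α : Fin (n + 1) → ℝ) (x : ZZ n) : zfun α x = ∑ i, α i * x.1 i := rfl

theorem linL_zfun (α : Fin (n + 1) → ℝ) (s : ZZ n) :
    linL (zfun α) s = ∑ i, C (α i) * (X (Sum.inl i) - C (s.1 i)) := by
  classical
  unfold linL
  have h1 : ∀ i : Fin (n + 1), zfun α ((Pi.single i 1, 0) : ZZ n) = α i := by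
    intro i
    rw [zfun_apply]
    simp [Pi.single_apply]
  have h2 : ∀ i : Fin (n + 1), zfun α ((0, Pi.single i 1) : ZZ n) = 0 := by
    intro i
    rw [zfun_apply]
    simp
  simp only [h1, h2, map_zero, zero_mul, Finset.sum_const_zero, add_zero]
  rw [zfun_apply, map_sum, ← Finset.sum_sub_distrib]
  refine Finset.sum_congr rfl fun i _ => ?_
  rw [map_mul]
  ring

/-- a linear relation between the `ζ_i` killing the class directions and `w` bounds `σ` -/
theorem sigma_lt_of_zfun {e : ZZ n × ZZ n} (he : e ∈ A) {α : Fin (n + 1) → ℝ} (hα : α ≠ 0)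
    (hV : ∀ x ∈ S.V e, zfun α x = 0) (hw : zfun α (e.1 - e.2) = 0) : σ + 1 ≤ n := by
  classical
  by_contra hcon
  have hσn : σ = n := le_antisymm S.hσ (by omega)
  have hz := S.hzero e he
  have hprime : (S.P e).IsPrime := H930.germ_isPrime hz (S.hind e he)
  have h1 : linL (zfun α) e.2 ∈ S.Pr e := H82.linL_mem_of_ann S e _ hV
  have h2 : linL (zfun α) e.2 = linL (zfun α) e.1 := by
    have h3 : zfun α e.1 = zfun α e.2 := by
      rw [← sub_eq_zero, ← map_sub]
      exact hw
    unfold linL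
    rw [h3]
  rw [h2, linL_zfun] at h1
  have h3 : rename (R := ℝ) (Sum.inr : ZI n → HL n)
      (∑ i, C (α i) * (X (Sum.inl i) - C (e.1.1 i))) ∈ S.P e := h1
  rw [map_sum] at h3
  simp only [map_mul, map_sub, rename_X, rename_C] at h3
  -- the linear polynomial of `u`
  set g : MvPolynomial (Fin n) ℝ := C (α 0) + ∑ i : Fin n, C (α i.succ) * X i with hg
  have h4 : rename (R := ℝ) (Sum.inl : Fin n → HL n) g *
      (X (Sum.inr (Sum.inl 0)) - C (e.1.1 0)) ∈ S.P e := by
    have h5 : rename (R := ℝ) (Sum.inl : Fin n → HL n) g *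
        (X (Sum.inr (Sum.inl 0)) - C (e.1.1 0)) =
        ∑ i : Fin (n + 1), C (α i) * (X (Sum.inr (Sum.inl i)) - C (e.1.1 i)) -
          ∑ i : Fin n, C (α i.succ) * SecC.incL e.1 i := by
      rw [Fin.sum_univ_succ, hg, map_add, map_sum]
      simp only [map_mul, rename_X, rename_C, SecC.incL, mul_sub, Finset.sum_sub_distrib,
        add_mul, Finset.sum_mul]
      simp only [mul_assoc, Finset.mul_sum]
      ring
    rw [h5]
    exact Ideal.sub_mem _ h3 (Submodule.sum_mem _ fun i _ =>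
      Ideal.mul_mem_left _ _ (S.hinc e he i))
  have h6 : rename (R := ℝ) (Sum.inl : Fin n → HL n) g ∈ S.P e := by
    refine (hprime.mem_or_mem h4).resolve_right fun h7 => ?_
    have h8 := H930.eval_eq_zero_of_mem_germ hz h7
    rw [map_sub, eval_X, eval_C] at h8
    exact S.hne e he (sub_eq_zero.1 h8).symm
  have h7 : g ∈ S.Pu e := by
    rw [← H395.comap_P S he]
    exact h6
  have hfz : ∀ i, eval (H686.mu e.1 e.2) (S.f e.1 i) = 0 := by
    intro i
    have h8 := hz (Fin.castAdd _ i)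
    rw [S.hleft, eval_rename] at h8
    exact h8
  have h8 := H930.grad_mem_of_mem_germ hfz h7
  have h9 : H930.grad (H686.mu e.1 e.2) g = 0 := by
    have : IsEmpty (Fin (n - σ)) := by
      rw [hσn, Nat.sub_self]
      infer_instance
    rwa [Set.range_eq_empty, Submodule.span_empty, Submodule.mem_bot] at h8
  have h10 : ∀ j : Fin n, α j.succ = 0 := by
    intro j
    have h11 := congrFun h9 j
    unfold H930.grad at h11
    rw [hg, map_add, map_sum, pderiv_C, zero_add] at h11
    simp only [pderiv_C_mul, pderiv_X, map_sum, Pi.zero_apply] at h11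
    rw [Finset.sum_eq_single j] at h11
    · simpa [Algebra.smul_def] using h11
    · intro b _ hb
      simp [Pi.single_apply, hb]
    · intro hj
      exact absurd (Finset.mem_univ j) hj
  have h12 : α 0 = 0 := by
    have h13 := H930.eval_eq_zero_of_mem_germ hfz h7
    rw [hg, map_add, map_sum, eval_C] at h13
    simpa [h10] using h13
  apply hα
  funext i
  refine Fin.cases h12 (fun j => h10 j) i

/-- **[SIGW]**: the wrong type occurs only for `σ ≤ n - 1`. -/
theorem sigma_lt_of_wrong {e : ZZ n × ZZ n} (he : e ∈ A) (U : Submodule ℝ (ZZ n))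
    (hU : S.V e ≤ U) (hw : e.1 - e.2 ∈ U) (hfr : finrank ℝ U ≤ n + 1) (hninj : ¬ ZInj U) :
    σ + 1 ≤ n := by
  classical
  let Z : U →ₗ[ℝ] (Fin (n + 1) → ℝ) := (LinearMap.fst ℝ _ _).comp U.subtype
  have h1 : LinearMap.ker Z ≠ ⊥ := by
    intro h
    apply hninj
    intro x hx hx0
    have h2 : (⟨x, hx⟩ : U) ∈ LinearMap.ker Z := by
      rw [LinearMap.mem_ker]
      exact hx0
    rw [h, Submodule.mem_bot] at h2
    exact congrArg Subtype.val h2
  have h2 : 0 < finrank ℝ (LinearMap.ker Z) := by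
    rw [Nat.pos_iff_ne_zero]
    intro h
    exact h1 (Submodule.finrank_eq_zero.1 h)
  have h3 := LinearMap.finrank_range_add_finrank_ker Z
  have h4 : LinearMap.range Z ≠ ⊤ := by
    intro h
    rw [h, finrank_top, finrank_fintype_fun_eq_card, Fintype.card_fin] at h3
    omega
  obtain ⟨l, hl, hle⟩ := Submodule.exists_le_ker_of_lt_top _ (lt_top_iff_ne_top.2 h4)
  have hlα : ∀ x : Fin (n + 1) → ℝ, l x = ∑ i, l (Pi.single i 1) * x i := by
    intro x
    conv_lhs => rw [← Finset.univ_sum_single x]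
    rw [map_sum]
    refine Finset.sum_congr rfl fun i _ => ?_
    have : (Pi.single i (x i) : Fin (n + 1) → ℝ) = x i • Pi.single i 1 := by
      rw [← Pi.single_smul, smul_eq_mul, mul_one]
    rw [this, map_smul, smul_eq_mul, mul_comm]
  have hU0 : ∀ x ∈ U, zfun (fun i => l (Pi.single i 1)) x = 0 := by
    intro x hx
    rw [zfun_apply, ← hlα]
    exact hle ⟨⟨x, hx⟩, rfl⟩
  refine sigma_lt_of_zfun S he (α := fun i => l (Pi.single i 1)) ?_ (fun x hx => hU0 x (hU hx))
    (hU0 _ hw)
  intro h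
  apply hl
  ext x
  simpa using congrFun h x

end Vale.Agent.P054.T2.H431
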