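import Mathlib
import Vale.Agent.P054.T2.H441.ADeriv
import Vale.Agent.P054.T2.H441.Dense
import Vale.Agent.P054.T2.H622.Cone
import Vale.Agent.P054.T2.H930.Jets

/-!
# P054 / T2, leaf (GEX): the cone polynomial over the field of constants
-/

namespace Vale.Agent.P054.T2.H431

open scoped BigOperators
open MvPolynomial Vale.Agent.P054.T2.H441

section lin

variable {K : Type*} [Field K] {κ : Type*}

/-- Hilbert function plus dimension of the ideal in degree `≤ T`. -/
theorem hF_add_finrank [Finite κ] (I : Ideal (MvPolynomial κ K)) (T : ℕ) :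
    hF I T + Module.finrank K
      ((restrictTotalDegree κ K T ⊓ I.restrictScalars K : Submodule K (MvPolynomial κ K))) =
      Module.finrank K (restrictTotalDegree κ K T) := by
  set V := restrictTotalDegree κ K T with hV
  have hfin : Module.Finite K V := inferInstance
  let g : V →ₗ[K] (MvPolynomial κ K ⧸ I) := (Ideal.Quotient.mkₐ K I).toLinearMap.domRestrict V
  have h1 := LinearMap.finrank_range_add_finrank_ker g
  have h2 : LinearMap.range g = V.map (Ideal.Quotient.mkₐ K I).toLinearMap :=
    LinearMap.range_domRestrict _ _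
  have h3 : (LinearMap.ker g).map V.subtype =
      (V ⊓ I.restrictScalars K : Submodule K (MvPolynomial κ K)) := by
    ext F
    constructor
    · rintro ⟨⟨G, hG⟩, hGk, rfl⟩
      refine ⟨hG, ?_⟩
      have h4 : Ideal.Quotient.mk I G = 0 := hGk
      exact Ideal.Quotient.eq_zero_iff_mem.1 h4
    · rintro ⟨hF1, hF2⟩
      exact ⟨⟨F, hF1⟩, Ideal.Quotient.eq_zero_iff_mem.2 hF2, rfl⟩
  rw [← h3, Submodule.finrank_map_subtype_eq]
  rw [h2] at h1
  exact h1

end lin

section const

variable {L : Type*} [Field L]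

theorem exists_lift {κ : Type*} (K' : Subfield L) (w : MvPolynomial κ L)
    (hw : ∀ m, coeff m w ∈ K') :
    ∃ w' : MvPolynomial κ K', map (algebraMap K' L) w' = w ∧ w'.totalDegree ≤ w.totalDegree := by
  classical
  refine ⟨∑ m ∈ w.support, monomial m (⟨coeff m w, hw m⟩ : K'), ?_, ?_⟩
  · rw [map_sum]
    conv_rhs => rw [← support_sum_monomial_coeff w]
    refine Finset.sum_congr rfl fun m _ => ?_
    rw [map_monomial]
    rfl
  · refine totalDegree_finsetSum_le fun m hm => ?_
    refine (totalDegree_monomial_le _ _).trans ?_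
    exact le_totalDegree hm

theorem finrank_inf_le {d : ℕ} (K' : Subfield L) (P : Ideal (MvPolynomial (Fin d) L)) (T : ℕ)
    (hspan : ∀ h ∈ (restrictTotalDegree (Fin d) L T ⊓ P.restrictScalars L :
        Submodule L (MvPolynomial (Fin d) L)),
      h ∈ Submodule.span L {w | w ∈ (restrictTotalDegree (Fin d) L T ⊓ P.restrictScalars L :
        Submodule L (MvPolynomial (Fin d) L)) ∧ ∀ m, coeff m w ∈ K'}) :
    Module.finrank L (restrictTotalDegree (Fin d) L T ⊓ P.restrictScalars L :
        Submodule L (MvPolynomial (Fin d) L)) ≤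
      Module.finrank K' (restrictTotalDegree (Fin d) K' T ⊓
        (P.comap (map (algebraMap K' L))).restrictScalars K' :
        Submodule K' (MvPolynomial (Fin d) K')) := by
  classical
  set W' : Submodule K' (MvPolynomial (Fin d) K') := restrictTotalDegree (Fin d) K' T ⊓
        (P.comap (map (algebraMap K' L))).restrictScalars K' with hW'
  have hfinV : Module.Finite K' (restrictTotalDegree (Fin d) K' T) := inferInstance
  have hfin : Module.Finite K' W' := Submodule.finiteDimensional_of_le inf_le_left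
  have hfree : Module.Free K' W' := Module.Free.of_divisionRing K' W'
  let b := Module.finBasis K' W'
  let f : Fin (Module.finrank K' W') → MvPolynomial (Fin d) L :=
    fun i => map (algebraMap K' L) (b i : MvPolynomial (Fin d) K')
  have hle : (restrictTotalDegree (Fin d) L T ⊓ P.restrictScalars L :
        Submodule L (MvPolynomial (Fin d) L)) ≤ Submodule.span L (Set.range f) := by
    intro h hh
    refine Submodule.span_le.2 ?_ (hspan h hh)
    rintro w ⟨⟨hw1, hw2⟩, hwc⟩
    obtain ⟨w', rfl, hdeg⟩ := exists_lift K' w hwc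
    have hw' : w' ∈ W' := by
      refine ⟨(mem_restrictTotalDegree _ _ _).2
        (hdeg.trans ((mem_restrictTotalDegree _ _ _).1 hw1)), ?_⟩
      exact hw2
    have h2 := b.sum_repr ⟨w', hw'⟩
    have h3 : w' = ∑ i, b.repr ⟨w', hw'⟩ i • (b i : MvPolynomial (Fin d) K') := by
      have h5 := congrArg (Submodule.subtype W') h2
      rw [map_sum] at h5
      simp only [map_smul, Submodule.subtype_apply] at h5
      exact h5.symm
    have h4 : map (algebraMap K' L) w' = ∑ i, (algebraMap K' L (b.repr ⟨w', hw'⟩ i)) • f i := by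
      conv_lhs => rw [h3]
      rw [map_sum]
      refine Finset.sum_congr rfl fun i _ => ?_
      rw [smul_eq_C_mul, smul_eq_C_mul, map_mul, map_C]
    rw [SetLike.mem_coe, h4]
    exact Submodule.sum_mem _ fun i _ => Submodule.smul_mem _ _ (Submodule.subset_span ⟨i, rfl⟩)
  have hfs : Module.Finite L (Submodule.span L (Set.range f)) :=
    Module.Finite.span_of_finite L (Set.finite_range f)
  calc Module.finrank L (restrictTotalDegree (Fin d) L T ⊓ P.restrictScalars L :
        Submodule L (MvPolynomial (Fin d) L))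
      ≤ Module.finrank L (Submodule.span L (Set.range f)) := Submodule.finrank_mono hle
    _ ≤ Fintype.card (Fin (Module.finrank K' W')) := finrank_range_le_card f
    _ = Module.finrank K' W' := Fintype.card_fin _

variable {k : Type*} [CommRing k] [Algebra k L]

/-- **(GEX)**. -/
theorem exists_cone_const {d : ℕ} (P : Ideal (MvPolynomial (Fin d) L)) {𝔇 : Type*}
    (D : 𝔇 → Derivation k L L) (hD : ∀ a, ∀ h ∈ P, cD (D a) h ∈ P)
    (K' : Subfield L) (hK : ∀ x : L, (∀ a, D a x = 0) → x ∈ K')
    (s : Fin d → K') {C₀ σ : ℕ} (hσ : σ + 2 ≤ d) (hP : ∀ T, hF P T ≤ C₀ * (T + 1) ^ σ) :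
    ∃ e, 1 ≤ e ∧ ∃ G : MvPolynomial (Fin d) K', G.IsHomogeneous e ∧ G ≠ 0 ∧
      aeval (fun l => X l - C (s l : L)) (map (algebraMap K' L) G) ∈ P := by
  classical
  set P' : Ideal (MvPolynomial (Fin d) K') := P.comap (map (algebraMap K' L)) with hP'
  have hle : ∀ T, hF P' T ≤ C₀ * (T + 1) ^ σ := by
    intro T
    refine le_trans ?_ (hP T)
    have h1 := hF_add_finrank P T
    have h2 := hF_add_finrank P' T
    rw [Vale.Agent.P054.T2.H930.finrank_restrictTotalDegree] at h1 h2
    have h3 := finrank_inf_le K' P T ?_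
    · rw [← hP'] at h3
      omega
    · intro h hh
      have h4 := mem_span_const_poly D (restrictTotalDegree (Fin d) L T ⊓ P.restrictScalars L) ?_
        h hh
      · refine Submodule.span_mono ?_ h4
        rintro w ⟨hw1, hw2⟩
        exact ⟨hw1, fun m => hK _ fun a => hw2 a m⟩
      · rintro a w ⟨hw1, hw2⟩
        refine ⟨(mem_restrictTotalDegree _ _ _).2 ?_, hD a w hw2⟩
        exact (totalDegree_cD_le _ _).trans ((mem_restrictTotalDegree _ _ _).1 hw1)
  obtain ⟨e, he, G, hG, hG0, hGP⟩ := Vale.Agent.P054.T2.H622.exists_cone P' s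
    (C₀ := C₀) (σ := σ) (by simpa using hσ) hle
  refine ⟨e, he, G, hG, hG0, ?_⟩
  have h5 : map (algebraMap K' L) (aeval (fun l => X l - C (s l)) G) ∈ P := hGP
  have h6 : map (algebraMap K' L) (aeval (fun l => X l - C (s l)) G : MvPolynomial (Fin d) K') =
      aeval (fun l => X l - C (s l : L)) (map (algebraMap K' L) G) := by
    rw [aeval_def, aeval_def, eval₂_map]
    have := MvPolynomial.eval₂_comp_left (map (algebraMap K' L)) (algebraMap K' (MvPolynomial (Fin d) K'))
      (fun l => X l - C (s l)) G
    rw [this]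
    congr 1
    · ext a
      simp [MvPolynomial.algebraMap_eq]
    · funext l
      simp
      rfl
  rwa [h6] at h5

/-- the field of constants of all derivations of `L` over `k`. -/
def constF (k : Type*) (L : Type*) [CommRing k] [Field L] [Algebra k L] : Subfield L where
  carrier := {x | ∀ D : Derivation k L L, D x = 0}
  mul_mem' := by
    intro a b ha hb D
    rw [D.leibniz, ha D, hb D, smul_zero, smul_zero, add_zero]
  one_mem' := fun D => D.map_one_eq_zero
  add_mem' := by
    intro a b ha hb D
    rw [map_add, ha D, hb D, add_zero]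
  zero_mem' := fun D => map_zero D
  neg_mem' := by
    intro a ha D
    rw [map_neg, ha D, neg_zero]
  inv_mem' := by
    intro a ha D
    rcases eq_or_ne a 0 with rfl | h0
    · rw [inv_zero, map_zero]
    · have h1 : D (a * a⁻¹) = 0 := by
        rw [mul_inv_cancel₀ h0]
        exact D.map_one_eq_zero
      rw [D.leibniz, ha D, smul_zero, add_zero, smul_eq_mul] at h1
      exact (mul_eq_zero.1 h1).resolve_left h0

theorem mem_constF {x : L} : x ∈ constF k L ↔ ∀ D : Derivation k L L, D x = 0 := Iff.rfl

/-- **(GEX)** with the derivations of `L` over `k` and a generic direction `n`. -/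
theorem exists_cone_generic {d : ℕ} (P : Ideal (MvPolynomial (Fin d) L))
    (hD : ∀ D : Derivation k L L, ∀ h ∈ P, cD D h ∈ P)
    (s : Fin d → L) (hs : ∀ l, ∀ D : Derivation k L L, D (s l) = 0)
    {C₀ σ : ℕ} (hσ : σ + 2 ≤ d) (hP : ∀ T, hF P T ≤ C₀ * (T + 1) ^ σ)
    (n : Fin d → L) (hn : ∀ (G : MvPolynomial (Fin d) (constF k L)) (e : ℕ),
      G.IsHomogeneous e → G ≠ 0 → aeval n G ≠ 0) :
    ∃ e, 1 ≤ e ∧ ∃ G : MvPolynomial (Fin d) L, G.IsHomogeneous e ∧
      aeval (fun l => X l - C (s l)) G ∈ P ∧ eval n G ≠ 0 := by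
  obtain ⟨e, he, G, hG, hG0, hGP⟩ := exists_cone_const P (fun D : Derivation k L L => D) hD
    (constF k L) (fun x hx => hx) (fun l => ⟨s l, hs l⟩) hσ hP
  refine ⟨e, he, map (algebraMap (constF k L) L) G, hG.map _, hGP, ?_⟩
  have h1 := hn G e hG hG0
  rwa [aeval_def, ← eval_map] at h1

end const

end Vale.Agent.P054.T2.H431
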