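import Mathlib
import Vale.Agent.P054.T2.H431.MD2

/-!
# P054 / T2: bad points in the form used by section C
-/

namespace Vale.Agent.P054.T2.H431

open scoped BigOperators
open MvPolynomial Vale.Agent.P054.T2.H163 Vale.Agent.P054.T2.H441

variable {k : Type*} [Field k] {κ : Type*}

/-- `s` is a bad point for `P`: its multiplicity carries half of the Hilbert function. -/
def Bad (P : Ideal (MvPolynomial κ k)) (s : κ → k) : Prop :=
  ∃ K : ℕ, ∀ n ≥ K, hF P n ≤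
    2 * Module.finrank k (MvPolynomial κ k ⧸ (P ⊔ (RingHom.ker (eval s)) ^ (n + 1)))

/-- the number of bad points of a set separated by polynomials of degree `≤ D`. -/
theorem card_bad_le [Finite κ] (P : Ideal (MvPolynomial κ k)) {Δ σ : ℕ}
    (hP : ∀ n, hF P n ≤ Δ * (n + 1) ^ σ) (hP1 : ∀ n, 1 ≤ hF P n)
    (Y : Finset (κ → k)) {D : ℕ} (hY : rkY Y D = Y.card) (hbad : ∀ p ∈ Y, Bad P p) :
    Y.card ≤ 2 * (D + 1) ^ σ := by
  classical
  have hP' : ∀ n, hF P n ≤ Δ * (n + 2) ^ σ := fun n =>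
    (hP n).trans (Nat.mul_le_mul_left _ (Nat.pow_le_pow_left (by omega) _))
  obtain ⟨T₁, hT₁⟩ : ∃ T₁, ∀ p ∈ Y, ∀ T ≥ T₁,
      hF P T ≤ 2 * Module.finrank k (MvPolynomial κ k ⧸ (P ⊔ m p ^ (T + 1))) := by
    choose! t ht using hbad
    exact ⟨Y.sup t, fun p hp T hT => ht p hp T ((Finset.le_sup hp).trans hT)⟩
  have step : ∀ T, T₁ ≤ T → Y.card * hF P T ≤ 2 * hF P ((T + 1) * D + T) := by
    intro T hT
    have h1 := mult_sum_le P Y (T := D) (k := T) hY
    calc Y.card * hF P T = ∑ _p ∈ Y, hF P T := by rw [Finset.sum_const, smul_eq_mul]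
      _ ≤ ∑ p ∈ Y, 2 * Module.finrank k (MvPolynomial κ k ⧸ (P ⊔ m p ^ (T + 1))) :=
          Finset.sum_le_sum fun p hp => hT₁ p hp T hT
      _ = 2 * ∑ p ∈ Y, Module.finrank k (MvPolynomial κ k ⧸ (P ⊔ m p ^ (T + 1))) := by
          rw [Finset.mul_sum]
      _ ≤ 2 * hF P ((T + 1) * D + T) := Nat.mul_le_mul_left _ h1
  -- `u j = (D + 1) ^ j * (T₁ + 1) - 1` satisfies `u (j + 1) = (u j + 1) * D + u j`
  have iter : ∀ j, Y.card ^ j * hF P T₁ ≤ 2 ^ j * hF P ((D + 1) ^ j * (T₁ + 1) - 1) := by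
    intro j
    induction j with
    | zero => simp
    | succ j ih =>
      set u := (D + 1) ^ j * (T₁ + 1) - 1 with hu
      have h5 : 1 ≤ (D + 1) ^ j := Nat.one_le_pow _ _ (by omega)
      have h5' : T₁ + 1 ≤ (D + 1) ^ j * (T₁ + 1) := Nat.le_mul_of_pos_left _ h5
      have h6 : T₁ ≤ u := by omega
      have h7 : (D + 1) ^ j * (T₁ + 1) = u + 1 := by omega
      have h8 : (D + 1) ^ (j + 1) * (T₁ + 1) - 1 = (u + 1) * D + u := by
        rw [pow_succ, show (D + 1) ^ j * (D + 1) * (T₁ + 1) = (D + 1) ^ j * (T₁ + 1) * (D + 1) by ring,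
          h7]
        have : (u + 1) * (D + 1) = (u + 1) * D + u + 1 := by ring
        omega
      calc Y.card ^ (j + 1) * hF P T₁ = Y.card * (Y.card ^ j * hF P T₁) := by ring
        _ ≤ Y.card * (2 ^ j * hF P u) := Nat.mul_le_mul_left _ ih
        _ = 2 ^ j * (Y.card * hF P u) := by ring
        _ ≤ 2 ^ j * (2 * hF P ((u + 1) * D + u)) := Nat.mul_le_mul_left _ (step _ h6)
        _ = 2 ^ (j + 1) * hF P ((D + 1) ^ (j + 1) * (T₁ + 1) - 1) := by
            rw [h8]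
            ring
  refine le_of_pow_le_mul_pow (K := Δ * (T₁ + 1) ^ σ) fun j => ?_
  have h5 : 1 ≤ (D + 1) ^ j * (T₁ + 1) :=
    Nat.one_le_iff_ne_zero.2 (Nat.mul_ne_zero (pow_ne_zero _ (by omega)) (by omega))
  calc Y.card ^ j ≤ Y.card ^ j * hF P T₁ := Nat.le_mul_of_pos_right _ (hP1 T₁)
    _ ≤ 2 ^ j * hF P ((D + 1) ^ j * (T₁ + 1) - 1) := iter j
    _ ≤ 2 ^ j * (Δ * ((D + 1) ^ j * (T₁ + 1) - 1 + 1) ^ σ) := Nat.mul_le_mul_left _ (hP _)
    _ = 2 ^ j * (Δ * ((D + 1) ^ j * (T₁ + 1)) ^ σ) := by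
        rw [show (D + 1) ^ j * (T₁ + 1) - 1 + 1 = (D + 1) ^ j * (T₁ + 1) by omega]
    _ = Δ * (T₁ + 1) ^ σ * (2 * (D + 1) ^ σ) ^ j := by
        rw [mul_pow, mul_pow, ← pow_mul, ← pow_mul, mul_comm j σ]
        ring

/-- a point which is not bad. -/
theorem not_bad [Finite κ] (P : Ideal (MvPolynomial κ k)) {G : Set (MvPolynomial κ k)}
    (hPG : P = Ideal.span G) {J : ℕ} (hG : ∀ g ∈ G, g.totalDegree ≤ J) (s : κ → k)
    (h : ¬ Bad P s) (K : ℕ) :
    ∃ n ≥ K, hF P (n + J) ≤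
      2 * Module.finrank k ((Nm s (n + J) (n + 1)).map (Ideal.Quotient.mkₐ k P).toLinearMap) := by
  unfold Bad at h
  push Not at h
  obtain ⟨n, hn, hlt⟩ := h K
  refine ⟨n, hn, ?_⟩
  have h1 := md2 P hPG hG s (T := n + J) (n := n + 1) (by omega) (finite_quot_mpow P s _)
  have h2 : hF P n ≤ hF P (n + J) := hF_mono_deg P (Nat.le_add_right _ _)
  change 2 * Module.finrank k (MvPolynomial κ k ⧸ (P ⊔ m s ^ (n + 1))) < hF P n at hlt
  omega

/-- every ideal is generated by polynomials of bounded degree. -/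
theorem exists_gen_bound [Finite κ] (P : Ideal (MvPolynomial κ k)) :
    ∃ (G : Set (MvPolynomial κ k)) (J : ℕ), P = Ideal.span G ∧ ∀ g ∈ G, g.totalDegree ≤ J := by
  obtain ⟨G, hG⟩ := (isNoetherianRing_iff_ideal_fg _).1
    (inferInstance : IsNoetherianRing (MvPolynomial κ k)) P
  exact ⟨G, G.sup totalDegree, hG.symm, fun g hg => Finset.le_sup (f := totalDegree) hg⟩

theorem one_le_hF [Finite κ] (P : Ideal (MvPolynomial κ k)) (hP : P ≠ ⊤) (n : ℕ) : 1 ≤ hF P n := by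
  have hfin : Module.Finite k ((restrictTotalDegree κ k n).map
      (Ideal.Quotient.mkₐ k P).toLinearMap) := by
    have : Module.Finite k (restrictTotalDegree κ k n) := inferInstance
    exact Module.Finite.map _ _
  have : Nontrivial (MvPolynomial κ k ⧸ P) := Ideal.Quotient.nontrivial_iff.2 hP
  have h1 : (1 : MvPolynomial κ k ⧸ P) ∈ (restrictTotalDegree κ k n).map
      (Ideal.Quotient.mkₐ k P).toLinearMap :=
    ⟨1, (mem_restrictTotalDegree _ _ _).2 (by simp), by simp⟩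
  have h2 : (restrictTotalDegree κ k n).map (Ideal.Quotient.mkₐ k P).toLinearMap ≠ ⊥ := by
    intro h
    rw [h] at h1
    exact one_ne_zero ((Submodule.mem_bot k).1 h1)
  exact Submodule.one_le_finrank_iff.2 h2

end Vale.Agent.P054.T2.H431
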