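import Vale.Agent.P054.T2.H82.WTSide
import Vale.Agent.P054.T2.H588.GenU
import Vale.Agent.P054.T2.H622.Cyl
import Vale.Agent.P054.T2.H84.BadSide

set_option linter.all false

/-!
# P054 / T2, [CYL-INST]: the variety of `r` is a cylinder in the direction of the kernel vector

`S.V e` isotropic of dimension `n + 1`, `n₀` a kernel vector of `ζ` on `S.V e`, the prime of `r`
stable under the coefficientwise derivations and under `∂_{n₀}`: then `n + 1 ≤ σ + v`.
-/

open MvPolynomial Module

namespace Vale.Agent.P054.T2.H431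

open scoped BigOperators
open H441 H588
open H192 (Iso)
open H82 (linF linF_homog eval_linF exists_dual_over eval_linF_sum pt_sum cD_aeval yP_homog)
open SecC (ZI ZZ pt HL wt hx Side)

variable {n : ℕ}

/-- a linear form: its derivative in the direction `x` is the constant `q(x)` -/
def LinD {τ : Type*} [Fintype τ] (q : MvPolynomial τ ℝ) : Prop :=
  ∀ x : τ → ℝ, ∑ l, C (x l) * pderiv l q = C (eval x q)

theorem LinD.zero {τ : Type*} [Fintype τ] : LinD (0 : MvPolynomial τ ℝ) := by
  intro x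
  simp

theorem LinD.add {τ : Type*} [Fintype τ] {p q : MvPolynomial τ ℝ} (hp : LinD p) (hq : LinD q) :
    LinD (p + q) := by
  intro x
  simp only [map_add, mul_add, Finset.sum_add_distrib]
  rw [hp x, hq x]

theorem LinD.C_mul {τ : Type*} [Fintype τ] {p : MvPolynomial τ ℝ} (hp : LinD p) (c : ℝ) :
    LinD (C c * p) := by
  intro x
  have h1 : ∀ l, C (x l) * pderiv l (C c * p) = C c * (C (x l) * pderiv l p) := by
    intro l
    rw [pderiv_C_mul]
    ring
  simp only [h1]
  rw [← Finset.mul_sum, hp x, map_mul, eval_C, map_mul]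

theorem LinD.sum {τ ι : Type*} [Fintype τ] (t : Finset ι) {F : ι → MvPolynomial τ ℝ}
    (h : ∀ i ∈ t, LinD (F i)) : LinD (∑ i ∈ t, F i) := by
  classical
  induction t using Finset.induction_on with
  | empty => rw [Finset.sum_empty]; exact LinD.zero
  | insert a t ha ih =>
    rw [Finset.sum_insert ha]
    exact (h a (Finset.mem_insert_self _ _)).add
      (ih fun i hi => h i (Finset.mem_insert_of_mem hi))

theorem LinD.X {τ : Type*} [Fintype τ] [DecidableEq τ] (l : τ) :
    LinD (MvPolynomial.X l : MvPolynomial τ ℝ) := by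
  intro x
  rw [eval_X, Finset.sum_eq_single l]
  · rw [pderiv_X_self, mul_one]
  · intro b _ hb
    rw [pderiv_X_of_ne (Ne.symm hb), mul_zero]
  · intro h
    exact absurd (Finset.mem_univ l) h

theorem linD_yP (B : Matrix (Fin (n + 1)) (Fin (n + 1)) ℝ) (b : ZI n) : LinD (yP B b) := by
  classical
  rcases b with i | j
  · show LinD ((MvPolynomial.X (Sum.inl i) + MvPolynomial.X (Sum.inr i)) * C (1 / 2))
    rw [mul_comm]
    exact ((LinD.X _).add (LinD.X _)).C_mul _
  · show LinD (∑ i, C (B i j) * ((MvPolynomial.X (Sum.inr i) - MvPolynomial.X (Sum.inl i)) *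
      C (1 / 2)))
    refine LinD.sum _ fun i _ => LinD.C_mul ?_ _
    rw [mul_comm, sub_eq_add_neg]
    refine LinD.C_mul ((LinD.X _).add ?_) _
    have h := (LinD.X (Sum.inl i : ZI n)).C_mul (-1)
    have h1 : (C (-1 : ℝ) * MvPolynomial.X (Sum.inl i : ZI n) : MvPolynomial (ZI n) ℝ) =
        - MvPolynomial.X (Sum.inl i) := by
      rw [map_neg, map_one]; ring
    rwa [h1] at h

/-- chain rule for a linear substitution -/
theorem linD_aeval {κ τ : Type*} [Fintype κ] [Fintype τ] [DecidableEq κ]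
    (ψ : MvPolynomial κ ℝ →ₐ[ℝ] MvPolynomial τ ℝ)
    (hψ : ∀ i, LinD (ψ (MvPolynomial.X i))) (x : τ → ℝ) (h : MvPolynomial κ ℝ) :
    ∑ l, C (x l) * pderiv l (ψ h) =
      ψ (∑ i, C (eval x (ψ (MvPolynomial.X i))) * pderiv i h) := by
  classical
  have hC : ∀ c : ℝ, ψ (C c) = C c := fun c => ψ.commutes c
  induction h using MvPolynomial.induction_on with
  | C a => simp [hC]
  | add p q hp hq =>
    simp only [map_add, mul_add, Finset.sum_add_distrib] at hp hq ⊢
    rw [hp, hq]
  | mul_X p i hp =>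
    have h1 : ∀ l, C (x l) * pderiv l (ψ (p * MvPolynomial.X i)) =
        ψ (MvPolynomial.X i) * (C (x l) * pderiv l (ψ p)) +
          ψ p * (C (x l) * pderiv l (ψ (MvPolynomial.X i))) := by
      intro l
      rw [map_mul, Derivation.leibniz, smul_eq_mul, smul_eq_mul]
      ring
    simp only [h1]
    rw [Finset.sum_add_distrib, ← Finset.mul_sum, ← Finset.mul_sum, hp, hψ i x]
    have h2 : ∑ j, C (eval x (ψ (MvPolynomial.X j))) * pderiv j (p * MvPolynomial.X i) =
        MvPolynomial.X i * ∑ j, C (eval x (ψ (MvPolynomial.X j))) * pderiv j p +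
          p * C (eval x (ψ (MvPolynomial.X i))) := by
      have h3 : ∀ j, C (eval x (ψ (MvPolynomial.X j))) * pderiv j (p * MvPolynomial.X i) =
          MvPolynomial.X i * (C (eval x (ψ (MvPolynomial.X j))) * pderiv j p) +
            p * (C (eval x (ψ (MvPolynomial.X j))) * pderiv j (MvPolynomial.X i)) := by
        intro j
        rw [Derivation.leibniz, smul_eq_mul, smul_eq_mul]
        ring
      simp only [h3]
      rw [Finset.sum_add_distrib, ← Finset.mul_sum, ← Finset.mul_sum]
      congr 2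
      rw [Finset.sum_eq_single i]
      · rw [pderiv_X_self, mul_one]
      · intro b _ hb
        rw [pderiv_X_of_ne (Ne.symm hb), mul_zero]
      · intro h
        exact absurd (Finset.mem_univ i) h
    rw [h2, map_add, map_mul, map_mul, hC]

/-- growth of the Hilbert function of the zero ideal -/
theorem le_of_choose_le {m s C : ℕ} (h : ∀ T, (T + m).choose m ≤ C * (T + 1) ^ s) : m ≤ s := by
  by_contra hcon
  push Not at hcon
  have h1 := h (m.factorial * C)
  set T := m.factorial * C with hT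
  have h2 : (T + 1) ^ m ≤ m.factorial * (T + m).choose m := by
    have h3 := Nat.pow_succ_le_ascFactorial (T + 1) m
    rwa [Nat.ascFactorial_eq_factorial_mul_choose] at h3
  have h3 : (T + 1) ^ m ≤ T * (T + 1) ^ s := by
    calc (T + 1) ^ m ≤ m.factorial * (T + m).choose m := h2
      _ ≤ m.factorial * (C * (T + 1) ^ s) := Nat.mul_le_mul_left _ h1
      _ = T * (T + 1) ^ s := by rw [← mul_assoc]
  have h4 : (T + 1) ^ (s + 1) ≤ (T + 1) ^ m := Nat.pow_le_pow_right (Nat.succ_pos _) hcon
  have h5 : (T + 1) * (T + 1) ^ s ≤ T * (T + 1) ^ s := by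
    rw [← pow_succ']
    exact h4.trans h3
  have h6 := Nat.le_of_mul_le_mul_right h5 (pow_pos (Nat.succ_pos T) s)
  omega

variable {k : Type*} [CommRing k] [Algebra k ℝ] {A : Finset (ZZ n × ZZ n)} {W D σ v : ℕ}

/-- **[CYL-INST]** -/
theorem cylInst (S : Side n A W D σ v) {e : ZZ n × ZZ n} (he : e ∈ A)
    {M : Matrix (Fin (n + 1)) (Fin (n + 1)) ℝ} (hM : PG (constF k ℝ) M)
    (hU : OverK (constF k ℝ) M (S.V e)) (hiso : Iso (S.V e)) (hfin : finrank ℝ (S.V e) = n + 1)
    (hstab : ∀ (D : Derivation k ℝ ℝ) (h : MvPolynomial (ZI n) ℝ), chg M h ∈ S.Pr e →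
      chg M (cD D h) ∈ S.Pr e)
    (n₀ : ZZ n) (hn₀V : n₀ ∈ S.V e) (hn₀ : n₀ ≠ 0) (hn₀z : n₀.1 = 0)
    (hcone : ∀ G ∈ S.Pr e, ∑ l, C (pt n₀ l) * pderiv l G ∈ S.Pr e) : n + 1 ≤ σ + v := by
  classical
  obtain ⟨f, hf, hlin, hUf⟩ := hU.exists_basis hM.1 hfin
  have hisof : ∀ s ∈ Submodule.span ℝ (Set.range f), Qv s = 0 := by
    intro s hs
    rw [← Qf_ztL hM.1]
    apply hiso
    rw [hUf]
    exact Submodule.mem_map_of_mem hs
  have hmem : ∀ x ∈ S.V e, ∃ b : Fin (n + 1) → ℝ, x = ztL M (∑ i, b i • f i) := by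
    intro x hx
    rw [hUf] at hx
    obtain ⟨s, hs, rfl⟩ := hx
    rw [SetLike.mem_coe, Submodule.mem_span_range_iff_exists_fun] at hs
    obtain ⟨b, rfl⟩ := hs
    exact ⟨b, rfl⟩
  obtain ⟨b, hb⟩ := hmem n₀ hn₀V
  have hb0 : b ≠ 0 := by
    rintro rfl
    apply hn₀
    rw [hb]
    simp
  have hbz : zmap M (∑ i, b i • f i) = 0 := by
    rw [hb, ztL_fst] at hn₀z
    exact hn₀z
  rcases iso_dichotomy hM f hf hlin hisof with h1 | ⟨a, ha0, ha1, ha2, ha3⟩
  · exact absurd (h1 b hbz) hb0
  obtain ⟨c₀, hc₀⟩ := ha2 b hbz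
  have hc₀0 : c₀ ≠ 0 := by
    rintro rfl
    apply hb0
    rw [hc₀, zero_smul]
  -- the coordinates of `n₀` are linearly independent over the constants
  have hbind : LinearIndependent (constF k ℝ) b := by
    rw [Fintype.linearIndependent_iff]
    intro g hg i
    set G : MvPolynomial (Fin (n + 1)) (constF k ℝ) := ∑ i, C (g i) * MvPolynomial.X i with hG
    have hGh : G.IsHomogeneous 1 := by
      refine IsHomogeneous.sum _ _ _ fun i _ => ?_
      have h := (isHomogeneous_C (Fin (n + 1)) (g i)).mul (isHomogeneous_X (constF k ℝ) i)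
      simpa using h
    have hGa : aeval a G = 0 := by
      have h2 : ∑ i, (g i : ℝ) * a i = 0 := by
        have h3 : ∑ i, (g i : ℝ) * (c₀ * a i) = 0 := by
          rw [← hg]
          refine Finset.sum_congr rfl fun i _ => ?_
          rw [hc₀]
          rfl
        have h4 : c₀ * ∑ i, (g i : ℝ) * a i = 0 := by
          rw [← h3, Finset.mul_sum]
          refine Finset.sum_congr rfl fun i _ => by ring
        exact (mul_eq_zero.1 h4).resolve_left hc₀0
      rw [hG, map_sum, ← h2]
      refine Finset.sum_congr rfl fun i _ => ?_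
      rw [map_mul, aeval_X, aeval_C]
      rfl
    have hG0 : G = 0 := by
      by_contra h
      exact ha3 G 1 hGh h hGa
    have h5 : coeff (Finsupp.single i 1) G = g i := by
      rw [hG, coeff_sum, Finset.sum_eq_single i]
      · rw [coeff_C_mul, coeff_X', if_pos rfl, mul_one]
      · intro j _ hj
        rw [coeff_C_mul, coeff_X', if_neg, mul_zero]
        intro h6
        exact hj (Finsupp.single_left_injective one_ne_zero h6)
      · intro h
        exact absurd (Finset.mem_univ i) h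
    rw [← h5, hG0, coeff_zero]
  -- the linear coordinates
  have hlin' : LinearIndependent ℝ fun i => pt (f i) := by
    have h1 : LinearMap.ker (H82.ptL (n := n)) = ⊥ :=
      LinearMap.ker_eq_bot.2 (fun x y h => SecC.pt_injective h)
    exact hlin.map' H82.ptL h1
  obtain ⟨c, hc, hcf⟩ := exists_dual_over (constF k ℝ) (fun i => pt (f i)) (fun i l => by
    rcases l with l | l
    · exact (hf i).1 l
    · exact (hf i).2 l) hlin'
  let ℓ : Fin (n + 1) → MvPolynomial (ZI n) ℝ := fun i => linF (c i)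
  have hℓD : ∀ (D : Derivation k ℝ ℝ) (i), cD D (ℓ i) = 0 := by
    intro D i
    show cD D (linF (c i)) = 0
    unfold linF
    rw [map_sum]
    refine Finset.sum_eq_zero fun l _ => ?_
    rw [Derivation.leibniz, cD_C, cD_X, hc i l D, map_zero, smul_zero, smul_zero, add_zero]
  let ψ : MvPolynomial (Fin (n + 1)) ℝ →ₐ[ℝ] MvPolynomial (ZI n) ℝ := (chg M).comp (aeval ℓ)
  have hψX : ∀ i, ψ (MvPolynomial.X i) = chg M (linF (c i)) := by
    intro i
    show chg M (aeval ℓ (MvPolynomial.X i)) = _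
    rw [aeval_X]
  have hψh : ∀ i, (ψ (MvPolynomial.X i)).IsHomogeneous 1 := by
    intro i
    rw [hψX]
    unfold linF
    rw [map_sum]
    refine IsHomogeneous.sum _ _ _ fun l _ => ?_
    have e1 : chg M (C (c i l)) = C (c i l) := (chg M).commutes _
    rw [map_mul, chg_X, e1]
    have h := (isHomogeneous_C (ZI n) (c i l)).mul (yP_homog M l)
    simpa using h
  have hψL : ∀ i, LinD (ψ (MvPolynomial.X i)) := by
    intro i
    rw [hψX]
    unfold linF
    rw [map_sum]
    refine LinD.sum _ fun l _ => ?_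
    have e1 : chg M (C (c i l)) = C (c i l) := (chg M).commutes _
    rw [map_mul, chg_X, e1]
    exact (linD_yP M l).C_mul _
  have hψe : ∀ i, eval (pt n₀) (ψ (MvPolynomial.X i)) = b i := by
    intro i
    rw [hψX, hb]
    have e1 : ztL M (∑ i, b i • f i) = zB M (∑ i, b i • f i) := rfl
    rw [e1, eval_chg hM.1, pt_sum]
    exact eval_linF_sum (fun i => pt (f i)) c hcf b i
  let P : Ideal (MvPolynomial (Fin (n + 1)) ℝ) := (S.Pr e).comap ψ
  have hPD : ∀ D : Derivation k ℝ ℝ, ∀ h ∈ P, cD D h ∈ P := by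
    intro D h hh
    show chg M (aeval ℓ (cD D h)) ∈ S.Pr e
    rw [← cD_aeval D ℓ (hℓD D)]
    exact hstab D _ hh
  have hspan : ∀ h ∈ P, h ∈ Submodule.span ℝ
      {w : MvPolynomial (Fin (n + 1)) ℝ | w ∈ P ∧ ∃ w', w = map (algebraMap (constF k ℝ) ℝ) w'} := by
    intro h hh
    have h1 := mem_span_const_poly (fun D : Derivation k ℝ ℝ => D) (P.restrictScalars ℝ)
      (fun D w hw => hPD D w hw) h hh
    refine Submodule.span_mono ?_ h1
    rintro w ⟨hw1, hw2⟩
    obtain ⟨w', hw', -⟩ := exists_lift (constF k ℝ) w fun m D => hw2 D m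
    exact ⟨hw1, w', hw'.symm⟩
  have hder : ∀ h ∈ P, ∑ i, C (b i) * pderiv i h ∈ P := by
    intro h hh
    have h1 := hcone (ψ h) hh
    rw [linD_aeval ψ hψL] at h1
    simp only [hψe] at h1
    exact h1
  rcases H622.cyl (K := constF k ℝ) P hspan hbind hder with hP | hP
  · obtain ⟨C₀, hC₀⟩ := H84.hF_Pr_le S he
    refine le_of_choose_le (C := C₀) fun T => ?_
    have h1 := hF_comap_le' ψ (fun i => (hψh i).totalDegree_le) (S.Pr e) T
    have h2 := hF_add_finrank P T
    have h3 : (restrictTotalDegree (Fin (n + 1)) ℝ T ⊓ P.restrictScalars ℝ :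
        Submodule ℝ (MvPolynomial (Fin (n + 1)) ℝ)) = ⊥ := by
      rw [hP, eq_bot_iff]
      rintro x ⟨-, hx⟩
      exact hx
    rw [h3, finrank_bot, add_zero, Vale.Agent.P054.T2.H930.finrank_restrictTotalDegree] at h2
    have h4 : hF P T ≤ hF (S.Pr e) T := h1
    rw [h2] at h4
    exact h4.trans (hC₀ T)
  · exfalso
    have h1 : (1 : MvPolynomial (Fin (n + 1)) ℝ) ∈ P := by rw [hP]; trivial
    have h2 : (1 : MvPolynomial (ZI n) ℝ) ∈ S.Pr e := by
      have h3 : ψ 1 ∈ S.Pr e := h1
      rwa [map_one] at h3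
    have h4 := S.eval_eq_zero_of_mem_Pr he h2
    rw [map_one] at h4
    exact one_ne_zero h4

end Vale.Agent.P054.T2.H431
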