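import Mathlib
import Vale.Agent.P054.T2.H431.WPrime
import Vale.Agent.P054.T2.H580.UpperGerm

/-!
# P054 / T2: dehomogenisation

The space of homogeneous polynomials of degree `T` in `x 0, ..., x n` (elements of a domain,
`x 0 ≠ 0`) has the dimension of the space of polynomials of degree `≤ T` in the quotients
`u i = x (i+1) / x 0`.
-/

namespace Vale.Agent.P054.T2.H431

open scoped BigOperators
open MvPolynomial

variable {k R K : Type*} [Field k] [CommRing R] [Algebra k R] [CommRing K] [Algebra k K]

/-- the Hilbert function of the kernel of the evaluation at a point `u` of a `k`-algebra. -/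
theorem hilb_ker_aeval {σ : Type*} (u : σ → K) (T : ℕ) :
    Vale.Agent.P054.T2.H580.hilb (RingHom.ker (aeval u : MvPolynomial σ k →ₐ[k] K)) T =
      Module.finrank k ((restrictTotalDegree σ k T).map
        (aeval u : MvPolynomial σ k →ₐ[k] K).toLinearMap) := by
  unfold Vale.Agent.P054.T2.H580.hilb
  set φ : MvPolynomial σ k →ₐ[k] K := aeval u with hφ
  have hinj : Function.Injective (Ideal.kerLiftAlg φ).toLinearMap := Ideal.kerLiftAlg_injective φ
  have h1 : ((restrictTotalDegree σ k T).map
      (Ideal.Quotient.mkₐ k (RingHom.ker φ)).toLinearMap).map (Ideal.kerLiftAlg φ).toLinearMap =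
      (restrictTotalDegree σ k T).map φ.toLinearMap := by
    rw [← Submodule.map_comp]
    congr 1
  rw [← h1]
  exact LinearEquiv.finrank_eq (Submodule.equivMapOfInjective _ hinj _)

/-- scaling of a homogeneous polynomial. -/
theorem aeval_scale {σ : Type*} {F : MvPolynomial σ k} {T : ℕ} (hF : F.IsHomogeneous T)
    (a : K) (w : σ → K) : aeval (fun i => a * w i) F = a ^ T * aeval w F := by
  classical
  rw [aeval_def, aeval_def, eval₂_eq, eval₂_eq, Finset.mul_sum]
  refine Finset.sum_congr rfl fun d hd => ?_
  have h3 : ∑ l ∈ d.support, d l = T := by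
    have := hF (mem_support_iff.1 hd)
    rw [← this, Finsupp.weight_apply, Finsupp.sum]
    simp
  simp_rw [mul_pow]
  rw [Finset.prod_mul_distrib, Finset.prod_pow_eq_pow_sum, h3]
  ring

theorem pow_mem_Sx {ι : Type*} (x : ι → R) (j : ι) (n : ℕ) : x j ^ n ∈ Sx k x n := by
  induction n with
  | zero => simpa using one_mem_Sx (k := k) x
  | succ n ih =>
    rw [pow_succ]
    exact mul_mem_Sx x _ _ _ _ ih (self_mem_Sx x j)

/-- **(DH)**. -/
theorem finrank_Sx_eq [IsDomain K] (j : R →ₐ[k] K) (hj : Function.Injective j) {n : ℕ}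
    (x : Fin (n + 1) → R) (u : Fin n → K) (h0 : j (x 0) ≠ 0)
    (hu : ∀ i : Fin n, j (x i.succ) = j (x 0) * u i) (T : ℕ) :
    Module.finrank k (Sx k x T) =
      Vale.Agent.P054.T2.H580.hilb (RingHom.ker (aeval u : MvPolynomial (Fin n) k →ₐ[k] K)) T := by
  classical
  rw [hilb_ker_aeval]
  set a : K := j (x 0) with ha
  let μ : K →ₗ[k] K := LinearMap.mulLeft k (a ^ T)
  have hμ : Function.Injective μ := by
    intro p q hpq
    exact mul_left_cancel₀ (pow_ne_zero _ h0) hpq
  have key : (Sx k x T).map j.toLinearMap =
      ((restrictTotalDegree (Fin n) k T).map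
        (aeval u : MvPolynomial (Fin n) k →ₐ[k] K).toLinearMap).map μ := by
    apply le_antisymm
    · rintro _ ⟨v, hv, rfl⟩
      obtain ⟨F, hF, rfl⟩ := mem_Sx.1 hv
      have h1 : j (aeval x F) = a ^ T * aeval (Fin.cons (1 : K) u : Fin (n + 1) → K) F := by
        rw [← aeval_scale hF a]
        have h2 : j (aeval x F) = aeval (fun i => j (x i)) F := by
          have : j.comp (aeval x) = aeval (fun i => j (x i)) := by
            ext l
            simp
          exact congrArg (fun h : MvPolynomial (Fin (n + 1)) k →ₐ[k] K => h F) this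
        rw [h2]
        congr 2
        funext i
        refine Fin.cases ?_ (fun i => ?_) i
        · simp [ha]
        · simp [hu i]
      let g : Fin (n + 1) → MvPolynomial (Fin n) k := Fin.cons 1 X
      refine ⟨aeval (Fin.cons (1 : K) u : Fin (n + 1) → K) F, ⟨aeval g F, ?_, ?_⟩, h1.symm⟩
      · refine (mem_restrictTotalDegree _ _ _).2 ?_
        refine (totalDegree_aeval_le_of_le_one g (fun l => ?_) F).trans hF.totalDegree_le
        refine Fin.cases ?_ (fun i => ?_) l
        · simp [g]
        · simp [g]
      · change aeval u (aeval g F) = _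
        have : (aeval u : MvPolynomial (Fin n) k →ₐ[k] K).comp (aeval g) =
            aeval (Fin.cons (1 : K) u : Fin (n + 1) → K) := by
          ext l
          refine Fin.cases ?_ (fun i => ?_) l
          · simp [g]
          · simp [g]
        exact congrArg (fun h : MvPolynomial (Fin (n + 1)) k →ₐ[k] K => h F) this
    · rintro _ ⟨_, ⟨G, hG, rfl⟩, rfl⟩
      have hG' : G.totalDegree ≤ T := (mem_restrictTotalDegree _ _ _).1 hG
      change a ^ T * aeval u G ∈ (Sx k x T).map j.toLinearMap
      rw [aeval_def, eval₂_eq, Finset.mul_sum]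
      refine Submodule.sum_mem _ fun d hd => ?_
      have hd' : ∑ l ∈ d.support, d l ≤ T := (le_totalDegree hd).trans hG'
      have h4 : a ^ T * (algebraMap k K (coeff d G) * ∏ i ∈ d.support, u i ^ d i) =
          coeff d G • j (x 0 ^ (T - ∑ l ∈ d.support, d l) *
            ∏ i ∈ d.support, x i.succ ^ d i) := by
        rw [map_mul, map_pow, map_prod, Algebra.smul_def]
        simp_rw [map_pow, hu, mul_pow]
        rw [Finset.prod_mul_distrib, Finset.prod_pow_eq_pow_sum, ← ha]
        have h5 : a ^ T = a ^ (T - ∑ l ∈ d.support, d l) * a ^ (∑ l ∈ d.support, d l) := by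
          rw [← pow_add]
          congr 1
          omega
        rw [h5]
        ring
      rw [h4]
      refine Submodule.smul_mem _ _ (Submodule.mem_map_of_mem ?_)
      have h6 := mul_mem_Sx (k := k) x _ _ _ _ (pow_mem_Sx (k := k) x 0 (T - ∑ l ∈ d.support, d l))
        (prod_mem_S (one_mem_Sx (k := k) x) (mul_mem_Sx x) d.support (fun i => x i.succ ^ d i)
          (fun i => d i) fun i _ => pow_mem_Sx x _ _)
      have he : T - ∑ l ∈ d.support, d l + ∑ l ∈ d.support, d l = T := by omega
      rwa [he] at h6
  have hj' : Function.Injective j.toLinearMap := hj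
  calc Module.finrank k (Sx k x T) = Module.finrank k ((Sx k x T).map j.toLinearMap) :=
        LinearEquiv.finrank_eq (Submodule.equivMapOfInjective _ hj' _)
    _ = Module.finrank k (((restrictTotalDegree (Fin n) k T).map
        (aeval u : MvPolynomial (Fin n) k →ₐ[k] K).toLinearMap).map μ) := by rw [key]
    _ = _ := (LinearEquiv.finrank_eq (Submodule.equivMapOfInjective _ hμ _)).symm

end Vale.Agent.P054.T2.H431
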