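import Mathlib
import Vale.Agent.P054.T2.H431.WPrime
import Vale.Agent.P054.T2.H580.UpperGerm
import Vale.Agent.P054.T2.H622.SmoothAt

/-!
# P054 / T2, leaf (W')

`P` a prime of `k[z]`, `s` a point where `P` contains `c` polynomials of degree `≤ Df` with
independent gradients, `x` a finite family of elements of `R = k[z] / P` and `y ∈ R` integral
over the `x` by a homogeneous equation, `z - s` linear in `x, y`, and rank of `R` over the
quotients of equal degree in `x` at most `D₁`.  Then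
`h_T(P) ≤ (T + 1) ^ (m - c) + D₁ * dim S_(T + C)`.
-/

namespace Vale.Agent.P054.T2.H431

open scoped BigOperators
open MvPolynomial

variable {k : Type*} [Field k] {κ : Type*}

/-- **(W')**. -/
theorem wprime [Fintype κ] (P : Ideal (MvPolynomial κ k)) [P.IsPrime] {c Df : ℕ}
    (f : Fin c → MvPolynomial κ k) (hf : ∀ l, f l ∈ P) (hDf : ∀ l, (f l).totalDegree ≤ Df)
    (s : κ → k) (h0 : ∀ l, eval s (f l) = 0)
    (hL : LinearIndependent k (fun l => fun i : κ => eval s (pderiv i (f l))))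
    {ι : Type*} [Finite ι] (x : ι → MvPolynomial κ k ⧸ P) (y : MvPolynomial κ k ⧸ P)
    {D : ℕ} (hD : 0 < D) (b : ℕ → MvPolynomial κ k ⧸ P)
    (hb : ∀ j, j < D → b j ∈ Sx k x (D - j))
    (hy : y ^ D = ∑ j ∈ Finset.range D, y ^ j * b j)
    (hz : ∀ l, Ideal.Quotient.mkₐ k P (X l - C (s l)) ∈ Gr (Sx k x) y D 1)
    (i₀ : ι) (hi₀ : x i₀ ≠ 0) {D₁ : ℕ} (hyp : SRank (Sx k x) D₁) :
    ∃ C : ℕ, ∀ T, Df ≤ T + 2 →
      Vale.Agent.P054.T2.H580.hilb P T ≤
        (T + 1) ^ (Fintype.card κ - c) + D₁ * Module.finrank k (Sx k x (T + C)) := by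
  classical
  obtain ⟨C, hC⟩ := nd (Sx k x) (one_mem_Sx x) (mul_mem_Sx x) (finite_Sx x) hyp
    (self_mem_Sx x i₀) hi₀ y D Df
  refine ⟨C, fun T hT => ?_⟩
  refine (Vale.Agent.P054.T2.H622.hilb_le_smooth P f hf hDf s h0 hL T (T + 2 - Df)
    (by omega)).trans ?_
  refine Nat.add_le_add_left ?_ _
  refine hC T _ ?_
  rintro _ ⟨F, hF, rfl⟩
  obtain ⟨hF1, hF2⟩ := Vale.Agent.P054.T2.H622.mem_Nsp.1 hF
  refine exists_sum_Gr_of_comp (Ideal.Quotient.mkₐ k P) s (one_mem_Sx x) (mul_mem_Sx x) hD b hb hy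
    hz (n := T + 2 - Df) (J := Df) (by omega) hF1 ?_
  intro j hj
  rw [homogeneousComponent_eq_zero']
  intro d hd hdj
  exact (mem_support_iff.1 hd) (hF2 d (by omega))

/-- **(W')**, the case without `y` (projection injective on the span). -/
theorem wprime' [Fintype κ] (P : Ideal (MvPolynomial κ k)) [P.IsPrime] {c Df : ℕ}
    (f : Fin c → MvPolynomial κ k) (hf : ∀ l, f l ∈ P) (hDf : ∀ l, (f l).totalDegree ≤ Df)
    (s : κ → k) (h0 : ∀ l, eval s (f l) = 0)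
    (hL : LinearIndependent k (fun l => fun i : κ => eval s (pderiv i (f l))))
    {ι : Type*} [Finite ι] (x : ι → MvPolynomial κ k ⧸ P)
    (hz : ∀ l, Ideal.Quotient.mkₐ k P (X l - C (s l)) ∈ Sx k x 1)
    (i₀ : ι) (hi₀ : x i₀ ≠ 0) {D₁ : ℕ} (hyp : SRank (Sx k x) D₁) :
    ∃ C : ℕ, ∀ T, Df ≤ T + 2 →
      Vale.Agent.P054.T2.H580.hilb P T ≤
        (T + 1) ^ (Fintype.card κ - c) + D₁ * Module.finrank k (Sx k x (T + C)) :=
  wprime P f hf hDf s h0 hL x 0 (D := 1) one_pos (fun _ => 0) (fun _ _ => Submodule.zero_mem _)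
    (by simp) (fun l => Gr_zero_mem one_pos (hz l)) i₀ hi₀ hyp

end Vale.Agent.P054.T2.H431
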