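import Vale.Agent.P054.T2.H82.InstSide
import Vale.Agent.P054.T2.H192.Hom
import Vale.Agent.P054.T2.H431.WPrime
import Vale.Agent.P054.T2.H431.MD

set_option linter.all false

/-!
# P054 / T2, [WT-A']: wrong type, the base point is not in the affine hull of the class

`w = s - r ∉ V`, `N = V ⊔ span w`, kernel of `ζ` on `N` is the line of `n₀`, and `G` is a
homogeneous polynomial with `G (r - s) = 0` on the variety of `r` and `G n₀ ≠ 0`.  Every polynomial
of degree `≤ T` in `r` is, modulo the prime of `r`, homogeneous of degree `T` in `r - s`.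
-/

open MvPolynomial Module

namespace Vale.Agent.P054.T2.H431

open scoped BigOperators
open H580 (IsFilt hilbF rkF Vw isFilt_Vw)
open H441 (hF rkY)
open H82 (ptL ptL_apply funL funL_apply FlatAt linL_mem_of_ann isFilt_quot inst_wrong_gen
  inst_right_gen mem_rPart_of phiS_rho rho rho_mem u_mem' linL_funL)
open SecC (ZI ZZ pt HL wt hx Side linL lin_apply wt_ne pt_injective)

section gen

variable {κ k : Type*} [Field k]

/-- a homogeneous polynomial of degree `T` in `X - s` lies in `m_s ^ T` -/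
theorem tr_neg_mem_mId_pow (s : κ → k) {F : MvPolynomial κ k} {T : ℕ} (hF : F.IsHomogeneous T) :
    H622.tr (-s) F ∈ mId s ^ T := by
  have h := aeval_mem_of_graded (R := MvPolynomial κ k)
    (fun m => (mId s ^ m).restrictScalars k) (by simp)
    (fun a b u v hu hv => by
      simp only [Submodule.restrictScalars_mem] at hu hv ⊢
      rw [pow_add]
      exact Ideal.mul_mem_mul hu hv)
    (fun i => (X i + C ((-s) i) : MvPolynomial κ k)) (fun i => by
      simp only [Submodule.restrictScalars_mem, pow_one]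
      refine Ideal.subset_span ⟨i, ?_⟩
      simp [sub_eq_add_neg]) hF
  exact h

/-- modulo a prime containing `λ (r - s) - 1` every polynomial of degree `≤ T` is of order `T`
at `s` -/
theorem hF_le_of_hom [Finite κ] (P : Ideal (MvPolynomial κ k)) (s : κ → k)
    (l : MvPolynomial κ k) (hl : l.IsHomogeneous 1) (hlP : H622.tr (-s) l - 1 ∈ P) (T : ℕ) :
    hF P T ≤ finrank k ((Nm s T T).map (Ideal.Quotient.mkₐ k P).toLinearMap) := by
  have hfin : Module.Finite k (restrictTotalDegree κ k T) := inferInstance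
  have hfinN : Module.Finite k (Nm s T T) :=
    Submodule.finiteDimensional_of_le (S₂ := restrictTotalDegree κ k T)
      fun F hF => (mem_restrictTotalDegree _ _ _).2 (mem_Nm.1 hF).1
  refine Submodule.finrank_mono ?_
  rintro _ ⟨F, hF, rfl⟩
  obtain ⟨A, hA, -, R, hR, hRh, e⟩ := H192.homAt P s l hl hlP T F
    ((mem_restrictTotalDegree _ _ _).1 hF) T le_rfl
  refine ⟨R, mem_Nm.2 ⟨hR.1, ?_⟩, ?_⟩
  · have h1 := tr_neg_mem_mId_pow s hRh
    rw [H622.tr_neg_tr] at h1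
    rwa [mId_eq] at h1
  · have h2 : (Ideal.Quotient.mkₐ k P).toLinearMap A = 0 := Ideal.Quotient.eq_zero_iff_mem.2 hA
    rw [e, map_add, h2, zero_add]

end gen

section side

variable {n : ℕ} {A : Finset (ZZ n × ZZ n)} {W D σ v : ℕ} (S : Side n A W D σ v)

/-- flatness with respect to any subspace containing the directions of the class and `s - r` -/
theorem flatAt_of_le {e : ZZ n × ZZ n} (he : e ∈ A) (N : Submodule ℝ (ZZ n)) (hN : S.V e ≤ N)
    (hw : e.1 - e.2 ∈ N) : FlatAt (S.P e) (N.map ptL) (pt e.1) where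
  flat := by
    intro c hc
    have h1 : ∀ x ∈ N, funL c x = 0 := fun x hx => hc _ ⟨x, hx, rfl⟩
    have h2 := linL_mem_of_ann S e (funL c) fun x hx => h1 x (hN hx)
    have h3 : rename (R := ℝ) (Sum.inr : ZI n → HL n) (linL (funL c) e.2) ∈ S.P e := h2
    have h4 : funL c e.1 = funL c e.2 := by
      rw [← sub_eq_zero, ← map_sub]
      exact h1 _ hw
    have h5 : linL (funL c) e.2 = linL (funL c) e.1 := by
      unfold linL
      rw [h4]
    rw [h5, linL_funL, map_sum] at h3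
    simp only [map_mul, map_sub, rename_X, rename_C] at h3
    exact h3
  inc := fun j => S.hinc e he j

/-- **wrong type**, for any subspace `N` containing the directions of the class and `s - r` -/
theorem hmd1_wrong_of_le {e : ZZ n × ZZ n} (he : e ∈ A) (N : Submodule ℝ (ZZ n))
    (hN : S.V e ≤ N) (hw : e.1 - e.2 ∈ N) (n₀ : ZZ n)
    (hn₀V : n₀ ∈ N) (hn₀ : n₀ ≠ 0) (hn₀z : n₀.1 = 0)
    (hker : ∀ x ∈ N, x.1 = 0 → ∃ c : ℝ, x = c • n₀)
    {D' : ℕ} (hD' : 0 < D') {G : MvPolynomial (ZI n) ℝ} (hG : G.IsHomogeneous D')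
    (hGs : aeval (fun l => (X l - C (pt e.1 l) : MvPolynomial (ZI n) ℝ)) G ∈ S.Pr e)
    (hGn : eval (pt n₀) G ≠ 0) :
    ∀ J, ∃ C, ∀ T m, T ≤ m + J →
      finrank ℝ ((Nm (pt e.1) T m).map (Ideal.Quotient.mkₐ ℝ (S.Pr e)).toLinearMap) ≤
        hilbF (Vw ℝ (wt W)) (S.P e) (T + C) := by
  intro J
  refine ⟨(J + D') * W, fun T q hq => ?_⟩
  have hF := flatAt_of_le S he N hN hw
  refine inst_wrong_gen (isFilt_quot (isFilt_Vw (k := ℝ) (wt (n := n) W) (wt_ne S.hW)) (S.P e))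
    (N.map ptL) (pt n₀) ⟨n₀, hn₀V, rfl⟩ (fun h => hn₀ ?_) (fun j => ?_) ?_
    (pt e.1) (rho (S.P e) (pt e.1)) (fun j => Ideal.Quotient.mkₐ ℝ (S.P e) (X (Sum.inl j)))
    (rho_mem (S.P e) (wt W) (fun _ => rfl) (pt e.1)) (u_mem' (S.P e) (wt W) (fun _ => rfl))
    hF.hflat hF.hinc hD' hG ?_ hGn (S.Pr e) (fun F hF0 => mem_rPart_of (by
      rwa [phiS_rho] at hF0)) hq
  · apply pt_injective
    rw [h]
    funext l
    rcases l with l | l <;> rfl
  · exact congrFun hn₀z j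
  · rintro _ ⟨x, hx, rfl⟩ hx0
    obtain ⟨c, hc⟩ := hker x hx (funext fun j => hx0 j)
    refine ⟨c, ?_⟩
    rw [hc, map_smul]
    rfl
  · have h1 : (Ideal.Quotient.mkₐ ℝ (S.P e))
        (rename Sum.inr (aeval (fun l => (X l - C (pt e.1 l) : MvPolynomial (ZI n) ℝ)) G)) = 0 :=
      Ideal.Quotient.eq_zero_iff_mem.2 hGs
    rw [← h1]
    have h2 : (aeval (rho (S.P e) (pt e.1)) : MvPolynomial (ZI n) ℝ →ₐ[ℝ] _) =
        ((Ideal.Quotient.mkₐ ℝ (S.P e)).comp (rename Sum.inr)).comp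
          (aeval fun l => (X l - C (pt e.1 l) : MvPolynomial (ZI n) ℝ)) := by
      ext l
      simp only [AlgHom.comp_apply, aeval_X, map_sub, rename_X, rho, algHom_C]
      rfl
    rw [h2]
    rfl

theorem linL_zero_isHomogeneous (l : ZZ n →ₗ[ℝ] ℝ) : (linL l 0).IsHomogeneous 1 := by
  unfold linL
  rw [map_zero, map_zero, sub_zero]
  refine IsHomogeneous.add (IsHomogeneous.sum _ _ _ fun i _ => ?_)
    (IsHomogeneous.sum _ _ _ fun i _ => ?_)
  · exact (isHomogeneous_C _ _).mul (isHomogeneous_X _ _)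
  · exact (isHomogeneous_C _ _).mul (isHomogeneous_X _ _)

theorem tr_neg_linL (l : ZZ n →ₗ[ℝ] ℝ) (s : ZZ n) : H622.tr (-(pt s)) (linL l 0) = linL l s := by
  unfold linL
  rw [map_zero, map_zero, sub_zero, map_add, map_sum, map_sum, lin_apply l s, map_add, map_sum,
    map_sum]
  simp only [map_mul, H622.tr_C, H622.tr_X, Pi.neg_apply, map_neg, mul_add, mul_neg,
    Finset.sum_add_distrib, Finset.sum_neg_distrib]
  simp only [pt, Sum.elim_inl, Sum.elim_inr]
  ring

/-- **[HOM] over `Side`**: `s - r ∉ S.V e` -/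
theorem exists_hom {e : ZZ n × ZZ n} (hw : e.1 - e.2 ∉ S.V e) :
    ∃ l : MvPolynomial (ZI n) ℝ, l.IsHomogeneous 1 ∧ H622.tr (-(pt e.1)) l - 1 ∈ S.Pr e := by
  obtain ⟨l, hl0, hlV⟩ := Submodule.exists_le_ker_of_notMem hw
  set c : ℝ := l (e.1 - e.2) with hc
  have hc0 : c ≠ 0 := by
    simpa using hl0
  set l' : ZZ n →ₗ[ℝ] ℝ := (-c⁻¹) • l with hl'
  have h1 : linL l' e.2 ∈ S.Pr e := by
    refine linL_mem_of_ann S e l' fun x hx => ?_
    have : l x = 0 := hlV hx
    rw [hl', LinearMap.smul_apply, this, smul_zero]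
  refine ⟨linL l' 0, linL_zero_isHomogeneous l', ?_⟩
  rw [tr_neg_linL]
  have h2 : linL l' e.1 - 1 = linL l' e.2 := by
    have h3 : l' e.2 = l' e.1 + 1 := by
      have h4 : l' (e.1 - e.2) = -1 := by
        rw [hl', LinearMap.smul_apply, ← hc, smul_eq_mul, neg_mul, inv_mul_cancel₀ hc0]
      rw [map_sub] at h4
      linarith
    unfold linL
    rw [h3, map_add, map_one]
    ring
  rw [h2]
  exact h1

/-- **[WT-A']**, the comparison of Hilbert functions. -/
theorem hF_le_off {e : ZZ n × ZZ n} (he : e ∈ A) (hwV : e.1 - e.2 ∉ S.V e)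
    (N : Submodule ℝ (ZZ n)) (hN : S.V e ≤ N) (hw : e.1 - e.2 ∈ N) (n₀ : ZZ n)
    (hn₀V : n₀ ∈ N) (hn₀ : n₀ ≠ 0) (hn₀z : n₀.1 = 0)
    (hker : ∀ x ∈ N, x.1 = 0 → ∃ c : ℝ, x = c • n₀)
    {D' : ℕ} (hD' : 0 < D') {G : MvPolynomial (ZI n) ℝ} (hG : G.IsHomogeneous D')
    (hGs : aeval (fun l => (X l - C (pt e.1 l) : MvPolynomial (ZI n) ℝ)) G ∈ S.Pr e)
    (hGn : eval (pt n₀) G ≠ 0) :
    ∃ C, ∀ T, hF (S.Pr e) T ≤ hilbF (Vw ℝ (wt W)) (S.P e) (T + C) := by
  obtain ⟨l, hl, hlP⟩ := exists_hom S hwV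
  obtain ⟨C, hC⟩ := hmd1_wrong_of_le S he N hN hw n₀ hn₀V hn₀ hn₀z hker hD' hG hGs hGn 0
  exact ⟨C, fun T => (hF_le_of_hom (S.Pr e) (pt e.1) l hl hlP T).trans (hC T T le_rfl)⟩

end side

end Vale.Agent.P054.T2.H431
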